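import Vale.Agent.P338.R2.H207.Fp.MidVal

/-!
The final pass.
-/

namespace Vale.Agent.P338.R2.H207.Fp

open H525.Fp
open H525 (zeros slotAt)
open H778 (val bits)
open WP
open Function (update)

variable {A : Par RR} {D : Dim}

/-! The constants. Registers: `r0` for `v ^ tri X`, `v2` for `w ^ (X - 1)`, `m` for the factor,
`m0` for the factor of the beginning of the row, `r` for `v ^ y`, `u` for `w ^ (X - 1 - x)`. -/

/-- the constants -/
def PC (D : Dim) (u : VV → ℕ) : Prop :=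
  u .r0 = vp D (tri D.X) ∧ u .v2 = wp D (D.X - 1) ∧ u .w = wp D 1 ∧ u .v = vp D 1

/-- computes the constants -/
def preP : WP RR VV :=
  seq preV (seq (one .t) (seq (one .s) (seq (loop .X (seq (mul .t .t .s) (mul .s .s .v)))
    (seq (cp .r0 .t) (seq (one .t) (seq (loop .X (seq (cp .s .t) (mul .t .t .w)))
      (cp .v2 .s)))))))

theorem tri_zero : tri 0 = 0 := rfl

theorem tr_preP (hA : Fits A D) (h : D.Ok) {v : RR → ℕ} {p : ℕ} (hQ : v .Q = 0) (hX : v .X = 0) :
    Tr A preP v p 0 [] (fun u => u .w = wp D 1) (PC D) := by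
  have h1 := tr_preV (p := p) hA h hQ
  have h2 : Tr A (one .t : WP RR VV) v p 0 []
      (fun u => u .w = wp D 1 ∧ u .v = vp D 1)
      (fun u => u .w = wp D 1 ∧ u .v = vp D 1 ∧ u .t = vp D (tri 0)) :=
    tr_one (fun u hu => by
      obtain ⟨h1, h2⟩ := hu
      simp [h1, h2, tri_zero, vp_zero h])
  have h3 : Tr A (one .s : WP RR VV) v p 0 []
      (fun u => u .w = wp D 1 ∧ u .v = vp D 1 ∧ u .t = vp D (tri 0))
      (fun u => u .w = wp D 1 ∧ u .v = vp D 1 ∧ u .t = vp D (tri 0) ∧ u .s = vp D 0) :=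
    tr_one (fun u hu => by
      obtain ⟨h1, h2, h3⟩ := hu
      simp [h1, h2, h3, vp_zero h])
  have h4 := tr_loop (A := A) (a := seq (mul .t .t .s) (mul .s .s .v)) (v := v) (r := RR.X)
    (p := p) (n := 0) (fun i (u : VV → ℕ) => u .w = wp D 1 ∧ u .v = vp D 1 ∧
      u .t = vp D (tri i) ∧ u .s = vp D i) (fun _ => []) hX (by
      intro i hi
      have a1 : Tr A (mul .t .t .s : WP RR VV) (update v .X i) (p + i * 0) 0 []
          (fun u => u .w = wp D 1 ∧ u .v = vp D 1 ∧ u .t = vp D (tri i) ∧ u .s = vp D i)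
          (fun u => u .w = wp D 1 ∧ u .v = vp D 1 ∧ u .t = vp D (tri (i + 1)) ∧
            u .s = vp D i) :=
        tr_mul_small (z := vp D (tri (i + 1))) hA h (vp_lt h (tri i)) (vp_lt h i)
          (by rw [vp_add, tri_succ]) (fun u hu => by
          obtain ⟨h1, h2, h3, h4⟩ := hu
          simp [h1, h2, h3, h4])
      have a2 : Tr A (mul .s .s .v : WP RR VV) (update v .X i) (p + i * 0 + 0) 0 []
          (fun u => u .w = wp D 1 ∧ u .v = vp D 1 ∧ u .t = vp D (tri (i + 1)) ∧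
            u .s = vp D i)
          (fun u => u .w = wp D 1 ∧ u .v = vp D 1 ∧ u .t = vp D (tri (i + 1)) ∧
            u .s = vp D (i + 1)) :=
        tr_mul_small hA h (vp_lt h i) (vp_lt h 1) (vp_add D i 1) (fun u hu => by
          obtain ⟨h1, h2, h3, h4⟩ := hu
          simp [h1, h2, h3, h4])
      exact a1.seq a2)
  have h5 : Tr A (cp .r0 .t : WP RR VV) v p 0 []
      (fun u => u .w = wp D 1 ∧ u .v = vp D 1 ∧ u .t = vp D (tri (A.m .X)) ∧
        u .s = vp D (A.m .X))
      (fun u => u .w = wp D 1 ∧ u .v = vp D 1 ∧ u .r0 = vp D (tri D.X)) := tr_cp (fun u hu => by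
    obtain ⟨h1, h2, h3, h4⟩ := hu
    rw [hA.mX] at h3
    simp [h1, h2, h3])
  have h6 : Tr A (one .t : WP RR VV) v p 0 []
      (fun u => u .w = wp D 1 ∧ u .v = vp D 1 ∧ u .r0 = vp D (tri D.X))
      (fun u => u .w = wp D 1 ∧ u .v = vp D 1 ∧ u .r0 = vp D (tri D.X) ∧ u .t = wp D 0 ∧
        (1 ≤ 0 → u .s = wp D (0 - 1))) :=
    tr_one (fun u hu => by
      obtain ⟨h1, h2, h3⟩ := hu
      simp [h1, h2, h3, one_eq h])
  have h7 := tr_loop (A := A) (a := seq (cp .s .t) (mul .t .t .w)) (v := v) (r := RR.X)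
    (p := p) (n := 0) (fun i (u : VV → ℕ) => u .w = wp D 1 ∧ u .v = vp D 1 ∧
      u .r0 = vp D (tri D.X) ∧ u .t = wp D i ∧ (1 ≤ i → u .s = wp D (i - 1)))
    (fun _ => []) hX (by
      intro i hi
      have a1 : Tr A (cp .s .t : WP RR VV) (update v .X i) (p + i * 0) 0 []
          (fun u => u .w = wp D 1 ∧ u .v = vp D 1 ∧
            u .r0 = vp D (tri D.X) ∧ u .t = wp D i ∧ (1 ≤ i → u .s = wp D (i - 1)))
          (fun u => u .w = wp D 1 ∧ u .v = vp D 1 ∧
            u .r0 = vp D (tri D.X) ∧ u .t = wp D i ∧ u .s = wp D i) :=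
        tr_cp (fun u hu => by
          obtain ⟨h1, h2, h3, h4, -⟩ := hu
          simp [h1, h2, h3, h4])
      have a2 : Tr A (mul .t .t .w : WP RR VV) (update v .X i) (p + i * 0 + 0) 0 []
          (fun u => u .w = wp D 1 ∧ u .v = vp D 1 ∧
            u .r0 = vp D (tri D.X) ∧ u .t = wp D i ∧ u .s = wp D i)
          (fun u => u .w = wp D 1 ∧ u .v = vp D 1 ∧
            u .r0 = vp D (tri D.X) ∧ u .t = wp D (i + 1) ∧ (1 ≤ i + 1 → u .s = wp D i)) :=
        tr_mul_small hA h (wp_lt h i) (wp_lt h 1) (wp_add D i 1) (fun u hu => by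
          obtain ⟨h1, h2, h3, h4, h5⟩ := hu
          simp [h1, h2, h3, h4, h5])
      exact a1.seq a2)
  have h8 : Tr A (cp .v2 .s : WP RR VV) v p 0 []
      (fun u => u .w = wp D 1 ∧ u .v = vp D 1 ∧
        u .r0 = vp D (tri D.X) ∧ u .t = wp D (A.m .X) ∧
          (1 ≤ A.m .X → u .s = wp D (A.m .X - 1)))
      (PC D) := tr_cp (fun u hu => by
    obtain ⟨h1, h2, h3, h4, h5⟩ := hu
    rw [hA.mX] at h5
    have h6 := h5 h.hX
    simp [PC, h1, h2, h3, h6])
  rw [Nat.mul_zero] at h4 h7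
  exact (h1.seq (h2.seq (h3.seq (h4.seq (h5.seq (h6.seq (h7.seq h8))))))).congr (fun _ h => h)
    (by simp) (by simp) (fun _ h => h)

/-! The program. -/

/-- one slot -/
def slotP : WP RR VV := seq (rd .z) (seq (mul .z .z .m) (wrl .z))

/-- one row -/
def rowP : WP RR VV :=
  seq (loop .G (seq (forReg .Y skE) (seq (cp .m .m0) (seq (cp .u .v2)
    (seq (loop .X (seq (loop .E slotP) (seq (mul .m .m .u) (mul .u .u .v))))
      (forCo .Y skE))))))
    (seq (mul .m0 .m0 .r) (mul .r .r .v))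

/-- one block -/
def blockP : WP RR VV :=
  seq (cp .m0 .r0) (seq (one .r) (seq (loop .Q skR) (seq (loop .Y rowP) (loop .Q skR))))

/-- The final pass. -/
def progP : WP RR VV := seq preP (seq (loop .W skip) (loop .K blockP))

/-- The invariant at the beginning of a row. -/
def PJ (D : Dim) (y : ℕ) (u : VV → ℕ) : Prop :=
  PC D u ∧ u .m0 = D.post 0 y ∧ u .r = vp D y

/-- The invariant in a row. -/
def PI (D : Dim) (x y : ℕ) (u : VV → ℕ) : Prop :=
  PJ D y u ∧ u .m = D.post x y ∧ (x < D.X → u .u = wp D (D.X - 1 - x))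

theorem PI_z {x y n : ℕ} {u : VV → ℕ} (hu : PI D x y u) : PI D x y (update u .z n) := by
  obtain ⟨⟨⟨h1, h2, h3, h4⟩, h5, h6⟩, h7, h8⟩ := hu
  simp only [PI, PJ, PC, ne_eq, reduceCtorEq, not_false_eq_true,
    Function.update_of_ne]
  exact ⟨⟨⟨h1, h2, h3, h4⟩, h5, h6⟩, h7, h8⟩

theorem trS_slotP (hA : Fits A D) (h : D.Ok) (v : RR → ℕ) (t x y : ℕ)
    (hl : (t + 1) * D.W ≤ A.w.length)
    (hb : val (slotAt D.W A.w t) * D.p * D.p ≤ 2 ^ D.W) :
    TrS A slotP v t 1
      ((bits D.W (val (slotAt D.W A.w t) * D.post x y % D.p)).drop (D.W - D.L)) (PI D x y)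
      (PI D x y) := by
  set a := val (slotAt D.W A.w t) with ha
  have h1 : Tr A (rd .z : WP RR VV) v (t * A.W) A.W [] (PI D x y)
      (fun u => PI D x y u ∧ u .z = a) := by
    refine tr_rd (by rw [hA.hW]; calc _ = (t + 1) * D.W := by ring
      _ ≤ _ := hl) (fun u hu => ?_)
    rw [hA.hW]
    exact ⟨PI_z hu, Function.update_self _ _ _⟩
  have h2 : Tr A (mul .z .z .m : WP RR VV) v (t * A.W + A.W) 0 []
      (fun u => PI D x y u ∧ u .z = a)
      (fun u => PI D x y u ∧ u .z = a * D.post x y % D.p) := by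
    refine tr_mul (fun u hu => ?_)
    rw [hA.hW, hA.hp, hA.hmu, hu.2, hu.1.2.1, mm_slot h hb (post_lt h x y)]
    exact ⟨PI_z hu.1, Function.update_self _ _ _⟩
  have h3 : Tr A (wrl .z : WP RR VV) v (t * A.W + A.W + 0) 0
      ((bits A.W (a * D.post x y % D.p)).drop (A.W - A.L))
      (fun u => PI D x y u ∧ u .z = a * D.post x y % D.p)
      (fun u => PI D x y u ∧ u .z = a * D.post x y % D.p) :=
    tr_wrl (fun u hu => hu.2)
  refine trS_one ((h1.seq (h2.seq h3)).congr (fun _ h => h) (by simp) ?_ (fun _ h => h.1))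
  rw [hA.hW, hA.hL]
  simp

theorem pos2_lt {k y g x e : ℕ} (hk : k < D.K) (hy : y < D.X) (hg : g < D.G)
    (hx : x < D.X) (he : e < D.E) :
    D.pos2 k (D.Q + y) g (y + x) e + 1 ≤ D.K * D.S2 * D.E := by
  unfold Dim.pos2
  have h1 : g * (2 * D.X) + (y + x) + 1 ≤ D.R := by
    calc g * (2 * D.X) + (y + x) + 1 ≤ g * (2 * D.X) + 2 * D.X := by omega
      _ = (g + 1) * (2 * D.X) := by ring
      _ ≤ D.G * (2 * D.X) := Nat.mul_le_mul_right _ hg
      _ = D.R := by unfold Dim.R; ring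
  have h2 : (D.Q + y) * D.R + D.R ≤ (D.X + D.Q) * D.R := by
    calc (D.Q + y) * D.R + D.R = (D.Q + y + 1) * D.R := by ring
      _ ≤ _ := Nat.mul_le_mul_right _ (by omega)
  have h3 : k * D.S2 + D.S2 ≤ D.K * D.S2 := by
    calc k * D.S2 + D.S2 = (k + 1) * D.S2 := by ring
      _ ≤ _ := Nat.mul_le_mul_right _ hk
  have h4 : (D.X + D.Q) * D.R ≤ D.S2 := by unfold Dim.S2; omega
  have h5 : k * D.S2 + (D.Q + y) * D.R + g * (2 * D.X) + (y + x) + 1 ≤ D.K * D.S2 := by omega
  calc (k * D.S2 + (D.Q + y) * D.R + g * (2 * D.X) + (y + x)) * D.E + e + 1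
      ≤ (k * D.S2 + (D.Q + y) * D.R + g * (2 * D.X) + (y + x)) * D.E + D.E := by omega
    _ = (k * D.S2 + (D.Q + y) * D.R + g * (2 * D.X) + (y + x) + 1) * D.E := by ring
    _ ≤ _ := Nat.mul_le_mul_right _ h5

/-- The hypotheses on the input. -/
structure InP (D : Dim) (w : List Bool) : Prop where
  hl : (1 + D.K * D.S2 * D.E) * D.W ≤ w.length
  hb : ∀ k < D.K, ∀ y < D.X, ∀ g < D.G, ∀ x < D.X, ∀ e < D.E,
    val (slotAt D.W w (1 + D.pos2 k (D.Q + y) g (y + x) e)) * D.p * D.p ≤ 2 ^ D.W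

theorem trS_rowP (hA : Fits A D) (h : D.Ok) (hw : InP D A.w) (v : RR → ℕ) {k y : ℕ}
    (hk : k < D.K) (hy : y < D.X) (hG : v .G = 0) (hX : v .X = 0) (hE : v .E = 0)
    (hW : v .W = 0) (hY : v .Y = y) :
    TrS A rowP v (1 + D.pos2 k (D.Q + y) 0 0 0) (D.R * D.E)
      ((List.range D.G).flatMap fun g => (List.range D.X).flatMap fun x =>
        (List.range D.E).flatMap fun e =>
        (bits D.W (val (slotAt D.W A.w (1 + D.pos2 k (D.Q + y) g (y + x) e)) *
          D.post x y % D.p)).drop (D.W - D.L))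
      (PJ D y) (PJ D (y + 1)) := by
  have h1 : TrS A (loop .G (seq (forReg .Y skE) (seq (cp .m .m0) (seq (cp .u .v2)
      (seq (loop .X (seq (loop .E slotP) (seq (mul .m .m .u) (mul .u .u .v))))
      (forCo .Y skE)))))) v (1 + D.pos2 k (D.Q + y) 0 0 0) (A.m .G * (2 * D.X * D.E))
      ((List.range (A.m .G)).flatMap fun g => (List.range (A.m .X)).flatMap fun x =>
        (List.range (A.m .E)).flatMap fun e =>
        (bits D.W (val (slotAt D.W A.w (1 + D.pos2 k (D.Q + y) g (y + x) e)) *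
          D.post x y % D.p)).drop (D.W - D.L))
      (PJ D y) (PJ D y) := by
    refine trS_loop (fun _ => PJ D y) _ hG (fun g hg => ?_)
    rw [hA.mG] at hg
    have e0 : 1 + D.pos2 k (D.Q + y) 0 0 0 + g * (2 * D.X * D.E) =
        1 + D.pos2 k (D.Q + y) g 0 0 := by
      unfold Dim.pos2
      ring
    rw [e0]
    have hYv : (update v RR.G g) RR.Y = y := by simp [hY]
    have a0 : TrS A (forReg .Y skE) (update v .G g) (1 + D.pos2 k (D.Q + y) g 0 0)
        (y * D.E) [] (PJ D y) (PJ D y) := by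
      have := trS_forReg (A := A) (a := skE) (v := update v .G g) (r := RR.Y)
        (t := 1 + D.pos2 k (D.Q + y) g 0 0) (n := D.E) (fun _ => PJ D y) (fun _ => [])
        (fun i _ => trS_skE hA (by simp [hE]) (by simp [hW]))
      refine this.congr (fun _ h => h) ?_ (by simp) (fun _ h => h)
      rw [hYv]
    have e1 : 1 + D.pos2 k (D.Q + y) g 0 0 + y * D.E = 1 + D.pos2 k (D.Q + y) g y 0 := by
      unfold Dim.pos2
      ring
    have a1 : ∀ t, TrS A (cp .m .m0 : WP RR VV) (update v .G g) t 0 [] (PJ D y)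
        (fun u => PJ D y u ∧ u .m = D.post 0 y) := by
      intro t
      refine trS_zero (tr_cp (fun u hu => ?_))
      obtain ⟨⟨h1, h2, h3, h4⟩, h5, h6⟩ := hu
      simp only [PJ, PC, Function.update_self, ne_eq, reduceCtorEq, not_false_eq_true,
        Function.update_of_ne]
      exact ⟨⟨⟨h1, h2, h3, h4⟩, h5, h6⟩, h5⟩
    have a2 : ∀ t, TrS A (cp .u .v2 : WP RR VV) (update v .G g) t 0 []
        (fun u => PJ D y u ∧ u .m = D.post 0 y) (PI D 0 y) := by
      intro t
      refine trS_zero (tr_cp (fun u hu => ?_))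
      obtain ⟨⟨⟨h1, h2, h3, h4⟩, h5, h6⟩, h7⟩ := hu
      simp only [PI, PJ, PC, Function.update_self, ne_eq, reduceCtorEq, not_false_eq_true,
        Function.update_of_ne]
      exact ⟨⟨⟨h1, h2, h3, h4⟩, h5, h6⟩, h7, fun _ => h2⟩
    have a3 : TrS A (loop .X (seq (loop .E slotP) (seq (mul .m .m .u) (mul .u .u .v))))
        (update v .G g) (1 + D.pos2 k (D.Q + y) g y 0) (A.m .X * (A.m .E * 1))
        ((List.range (A.m .X)).flatMap fun x => (List.range (A.m .E)).flatMap fun e =>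
          (bits D.W (val (slotAt D.W A.w (1 + D.pos2 k (D.Q + y) g (y + x) e)) *
          D.post x y % D.p)).drop (D.W - D.L))
        (PI D 0 y) (PI D (A.m .X) y) := by
      refine trS_loop (fun x => PI D x y) _ (by simp [hX]) (fun x hx => ?_)
      rw [hA.mX] at hx
      have b1 : TrS A (loop .E slotP) (update (update v .G g) .X x)
          (1 + D.pos2 k (D.Q + y) g (y + x) 0) (A.m .E * 1)
          ((List.range (A.m .E)).flatMap fun e =>
            (bits D.W (val (slotAt D.W A.w (1 + D.pos2 k (D.Q + y) g (y + x) e)) *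
            D.post x y % D.p)).drop (D.W - D.L))
          (PI D x y) (PI D x y) := by
        refine trS_loop (fun _ => PI D x y) _ (by simp [hE]) (fun e he => ?_)
        rw [hA.mE] at he
        have c1 := trS_slotP hA h (update (update (update v .G g) .X x) .E e)
          (1 + D.pos2 k (D.Q + y) g (y + x) e) x y (by
            refine le_trans (Nat.mul_le_mul_right _ ?_) hw.hl
            have := pos2_lt (D := D) hk hy hg hx he
            omega) (hw.hb k hk y hy g hg x hx e he)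
        have e1 : 1 + D.pos2 k (D.Q + y) g (y + x) 0 + e * 1 =
            1 + D.pos2 k (D.Q + y) g (y + x) e := by
          unfold Dim.pos2
          ring
        rw [e1]
        exact c1
      have b2 : ∀ t, TrS A (mul .m .m .u : WP RR VV) (update (update v .G g) .X x)
          t 0 [] (PI D x y)
          (fun u => PJ D y u ∧ u .m = D.post (x + 1) y ∧ u .u = wp D (D.X - 1 - x)) := by
        intro t
        refine trS_zero (tr_mul_small hA h (post_lt h x y) (wp_lt h _) (post_succ h hx)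
          (fun u hu => ?_))
        obtain ⟨⟨⟨h1, h2, h3, h4⟩, h5, h6⟩, h7, h8⟩ := hu
        refine ⟨h7, h8 hx, ?_⟩
        simp only [PJ, PC, Function.update_self, ne_eq, reduceCtorEq, not_false_eq_true,
          Function.update_of_ne]
        exact ⟨⟨⟨h1, h2, h3, h4⟩, h5, h6⟩, trivial, h8 hx⟩
      have b3 : ∀ t, TrS A (mul .u .u .v : WP RR VV) (update (update v .G g) .X x)
          t 0 []
          (fun u => PJ D y u ∧ u .m = D.post (x + 1) y ∧ u .u = wp D (D.X - 1 - x))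
          (PI D (x + 1) y) := by
        intro t
        refine trS_zero (tr_mul_small (z := wp D (D.X - 1 - x) * vp D 1 % D.p) hA h
          (wp_lt h _) (vp_lt h 1) rfl (fun u hu => ?_))
        obtain ⟨⟨⟨h1, h2, h3, h4⟩, h5, h6⟩, h7, h8⟩ := hu
        refine ⟨h8, h4, ?_⟩
        simp only [PI, PJ, PC, Function.update_self, ne_eq, reduceCtorEq, not_false_eq_true,
          Function.update_of_ne]
        refine ⟨⟨⟨h1, h2, h3, h4⟩, h5, h6⟩, h7, fun hx' => ?_⟩
        have e1 : D.X - 1 - x = D.X - 1 - (x + 1) + 1 := by omega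
        rw [e1, vp_one, wp_mul_vv h]
      have e1 : 1 + D.pos2 k (D.Q + y) g y 0 + x * (A.m .E * 1) =
          1 + D.pos2 k (D.Q + y) g (y + x) 0 := by
        rw [hA.mE]
        unfold Dim.pos2
        ring
      rw [e1]
      exact (b1.seq ((b2 _).seq (b3 _))).congr (fun _ h => h) rfl (by simp) (fun _ h => h)
    have a4 : ∀ t, TrS A (forCo .Y skE) (update v .G g) t
        ((D.X - y) * D.E) [] (PI D (A.m .X) y) (PJ D y) := by
      intro t
      have := trS_forCo (A := A) (a := skE) (v := update v .G g) (r := RR.Y)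
        (t := t) (n := D.E) (fun _ => PI D (A.m .X) y) (fun _ => [])
        (fun i _ => trS_skE hA (by simp [hE]) (by simp [hW]))
      refine this.congr (fun _ h => h) ?_ (by simp) (fun _ h => h.1)
      rw [hYv, hA.mY]
    have a3' := a3
    rw [← e1] at a3'
    have a3'' : TrS A (loop .X (seq (loop .E slotP) (seq (mul .m .m .u) (mul .u .u .v))))
        (update v .G g) (1 + D.pos2 k (D.Q + y) g 0 0 + y * D.E + 0 + 0)
        (A.m .X * (A.m .E * 1)) _ (PI D 0 y) (PI D (A.m .X) y) := a3'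
    refine (a0.seq ((a1 _).seq ((a2 _).seq (a3''.seq (a4 _))))).congr (fun _ h => h) ?_ ?_
      (fun _ h => h)
    · rw [hA.mX, hA.mE]
      have : (y * D.E + (0 + (0 + (D.X * (D.E * 1) + (D.X - y) * D.E)))) =
          (y + D.X + (D.X - y)) * D.E := by ring
      rw [this]
      congr 1
      omega
    · simp
  set t' := 1 + D.pos2 k (D.Q + y) 0 0 0 + A.m .G * (2 * D.X * D.E) with ht'
  have h2 : TrS A (mul .m0 .m0 .r : WP RR VV) v t' 0 [] (PJ D y)
      (fun u => PC D u ∧ u .m0 = D.post 0 (y + 1) ∧ u .r = vp D y) := by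
    refine trS_zero (tr_mul_small hA h (post_lt h 0 y) (vp_lt h _) (post_row D y)
      (fun u hu => ?_))
    obtain ⟨⟨h1, h2, h3, h4⟩, h5, h6⟩ := hu
    simp [PC, h1, h2, h3, h4, h5, h6]
  have h3 : TrS A (mul .r .r .v : WP RR VV) v (t' + 0) 0 []
      (fun u => PC D u ∧ u .m0 = D.post 0 (y + 1) ∧ u .r = vp D y) (PJ D (y + 1)) := by
    refine trS_zero (tr_mul_small hA h (vp_lt h y) (vp_lt h 1) (vp_add D y 1)
      (fun u hu => ?_))
    obtain ⟨⟨h1, h2, h3, h4⟩, h5, h6⟩ := hu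
    simp [PC, PJ, h1, h2, h3, h4, h5, h6]
  refine (h1.seq (h2.seq h3)).congr (fun _ h => h) ?_ ?_ (fun _ h => h)
  · rw [hA.mG]
    unfold Dim.R
    ring
  · rw [hA.mG, hA.mX, hA.mE]
    simp

theorem trS_blockP (hA : Fits A D) (h : D.Ok) (hw : InP D A.w) (v : RR → ℕ) {k : ℕ}
    (hk : k < D.K) (hQ : v .Q = 0) (hX : v .X = 0) (hY : v .Y = 0) (hG : v .G = 0)
    (hC : v .C = 0) (hE : v .E = 0) (hW : v .W = 0) :
    TrS A blockP v (1 + k * (D.S2 * D.E)) (D.S2 * D.E)
      ((List.range D.X).flatMap fun y => (List.range D.G).flatMap fun g =>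
        (List.range D.X).flatMap fun x => (List.range D.E).flatMap fun e =>
        (bits D.W (val (slotAt D.W A.w (1 + D.pos2 k (D.Q + y) g (y + x) e)) *
          D.post x y % D.p)).drop (D.W - D.L))
      (PC D) (PC D) := by
  set t := 1 + k * (D.S2 * D.E) with ht
  have h1 : TrS A (cp .m0 .r0 : WP RR VV) v t 0 [] (PC D)
      (fun u => PC D u ∧ u .m0 = D.post 0 0) := by
    refine trS_zero (tr_cp (fun u hu => ?_))
    obtain ⟨h1, h2, h3, h4⟩ := hu
    have e1 : D.post 0 0 = vp D (tri D.X) := by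
      rw [post_eq, Nat.sub_zero, tri_zero, Nat.add_zero]
    simp [PC, h1, h2, h3, h4, e1]
  have h2 : TrS A (one .r : WP RR VV) v (t + 0) 0 [] (fun u => PC D u ∧ u .m0 = D.post 0 0)
      (PJ D 0) := by
    refine trS_zero (tr_one (fun u hu => ?_))
    obtain ⟨⟨h1, h2, h3, h4⟩, h5⟩ := hu
    simp [PC, PJ, h1, h2, h3, h4, h5, vp_zero h]
  have h3 : ∀ (P : (VV → ℕ) → Prop) t, TrS A (loop .Q skR) v t (A.m .Q * (D.R * D.E)) [] P P :=
    fun P t => trS_skipLoop hQ (fun i t => trS_skR hA (by simp [hG]) (by simp [hC])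
      (by simp [hE]) (by simp [hW]))
  have h4 : TrS A (loop .Y rowP) v (1 + D.pos2 k D.Q 0 0 0) (A.m .Y * (D.R * D.E))
      ((List.range (A.m .Y)).flatMap fun y => (List.range D.G).flatMap fun g =>
        (List.range D.X).flatMap fun x => (List.range D.E).flatMap fun e =>
        (bits D.W (val (slotAt D.W A.w (1 + D.pos2 k (D.Q + y) g (y + x) e)) *
          D.post x y % D.p)).drop (D.W - D.L))
      (PJ D 0) (PJ D (A.m .Y)) := by
    refine trS_loop (fun y => PJ D y) _ hY (fun y hy => ?_)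
    rw [hA.mY] at hy
    have e1 : 1 + D.pos2 k D.Q 0 0 0 + y * (D.R * D.E) = 1 + D.pos2 k (D.Q + y) 0 0 0 := by
      unfold Dim.pos2
      ring
    rw [e1]
    exact trS_rowP hA h hw _ hk hy (by simp [hG]) (by simp [hX]) (by simp [hE]) (by simp [hW])
      (by simp)
  have e4 : t + 0 + 0 + A.m .Q * (D.R * D.E) = 1 + D.pos2 k D.Q 0 0 0 := by
    rw [hA.mQ, ht]
    unfold Dim.pos2
    ring
  have h4' := h4.congr (P' := PJ D 0) (Q' := PC D) (fun _ h => h) rfl rfl (fun _ h => h.1)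
  have h5 : TrS A (seq (loop .Y rowP) (loop .Q skR)) v (1 + D.pos2 k D.Q 0 0 0) _ _ (PJ D 0)
      (PC D) := h4'.seq (h3 (PC D) _)
  have h6 : TrS A (seq (loop .Q skR) (seq (loop .Y rowP) (loop .Q skR))) v (t + 0 + 0) _ _
      (PJ D 0) (PC D) := (h3 (PJ D 0) _).seq (by rw [e4]; exact h5)
  refine (h1.seq (h2.seq h6)).congr (fun _ h => h) ?_ ?_ (fun _ h => h)
  · rw [hA.mQ, hA.mY]
    unfold Dim.S2
    ring
  · rw [hA.mY]
    simp

/-- The final pass. -/
theorem tr_progP (hA : Fits A D) (h : D.Ok) (hw : InP D A.w) (v : RR → ℕ) (hv : ∀ r, v r = 0) :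
    Tr A progP v 0 ((1 + D.K * (D.S2 * D.E)) * D.W) (postBits D A.w)
      (fun u => u .w = wp D 1) (PC D) := by
  have h1 := tr_preP (p := 0) hA h (hv .Q) (hv .X)
  have h2 : TrS A (loop .W skip : WP RR VV) v 0 1 [] (PC D) (PC D) :=
    trS_skipW (by rw [hA.mW, hA.hW]) (hv .W)
  have h3 : TrS A (loop .K blockP) v (0 + 1) (A.m .K * (D.S2 * D.E))
      ((List.range (A.m .K)).flatMap fun k =>
      (List.range D.X).flatMap fun y => (List.range D.G).flatMap fun g =>
        (List.range D.X).flatMap fun x => (List.range D.E).flatMap fun e =>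
        (bits D.W (val (slotAt D.W A.w (1 + D.pos2 k (D.Q + y) g (y + x) e)) *
          D.post x y % D.p)).drop (D.W - D.L)) (PC D) (PC D) := by
    refine trS_loop (fun _ => PC D) _ (hv .K) (fun k hk => ?_)
    rw [hA.mK] at hk
    rw [Nat.zero_add]
    exact trS_blockP hA h hw _ hk (by simp [hv]) (by simp [hv]) (by simp [hv]) (by simp [hv])
      (by simp [hv]) (by simp [hv]) (by simp [hv])
  have h4 : Tr A (seq (loop .W skip) (loop .K blockP)) v (0 * A.W)
      ((1 + A.m .K * (D.S2 * D.E)) * A.W) _ (PC D) (PC D) := h2.seq h3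
  rw [Nat.zero_mul] at h4
  refine (h1.seq h4).congr (fun _ h => h) ?_ ?_ (fun _ h => h)
  · rw [hA.mK, hA.hW, Nat.zero_add]
  · rw [hA.mK]
    rfl

end Vale.Agent.P338.R2.H207.Fp
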