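import Vale.Agent.P338.R2.H207.Fp.PostVal

/-!
The costs of the middle pass and of the final pass; their evaluation.
-/

namespace Vale.Agent.P338.R2.H207.Fp

open H525.Fp
open H525 (zeros slotAt)
open H778 (val bits)
open H898 (XP XS XSem WI wsem)
open WP

theorem bd_loop_le {F α J : Type} {m : F → ℕ} {cost : J → ℕ} {r : F} {a : XP F α J} {c q k : ℕ}
    (hq : 1 ≤ q) (hr : m r = k) (hm : 1 ≤ k) (h : XP.bd m cost a ≤ c * q) :
    XP.bd m cost (XP.loop r a) ≤ (c + 4) * (k * q) := by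
  subst hr
  rw [XP.bd]
  have h1 : 1 ≤ m r * q := Nat.mul_pos hm hq
  have h2 : m r * (XP.bd m cost a + 2) ≤ m r * (c * q + 2) := Nat.mul_le_mul_left _ (by omega)
  have h3 : m r ≤ m r * q := Nat.le_mul_of_pos_right _ hq
  have h4 : m r * (c * q + 2) = c * (m r * q) + 2 * m r := by ring
  have h5 : (c + 4) * (m r * q) = c * (m r * q) + 4 * (m r * q) := by ring
  omega

theorem bd_forReg_le {F α J : Type} {m : F → ℕ} {cost : J → ℕ} {r : F} {a : XP F α J}
    {c q k : ℕ} (hq : 1 ≤ q) (hr : m r = k) (hm : 1 ≤ k) (h : XP.bd m cost a ≤ c * q) :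
    XP.bd m cost (XP.forReg r a) ≤ (c + 6) * (k * q) := by
  subst hr
  rw [XP.bd]
  have h1 : 1 ≤ m r * q := Nat.mul_pos hm hq
  have h2 : m r * (XP.bd m cost a + 2) ≤ m r * (c * q + 2) := Nat.mul_le_mul_left _ (by omega)
  have h3 : m r ≤ m r * q := Nat.le_mul_of_pos_right _ hq
  have h4 : m r * (c * q + 2) = c * (m r * q) + 2 * m r := by ring
  have h5 : (c + 6) * (m r * q) = c * (m r * q) + 6 * (m r * q) := by ring
  omega

theorem bd_forCo_le {F α J : Type} {m : F → ℕ} {cost : J → ℕ} {r : F} {a : XP F α J}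
    {c q k : ℕ} (hq : 1 ≤ q) (hr : m r = k) (hm : 1 ≤ k) (h : XP.bd m cost a ≤ c * q) :
    XP.bd m cost (XP.forCo r a) ≤ (c + 9) * (k * q) := by
  subst hr
  rw [XP.bd]
  have h1 : 1 ≤ m r * q := Nat.mul_pos hm hq
  have h2 : m r * (XP.bd m cost a + 4) ≤ m r * (c * q + 4) := Nat.mul_le_mul_left _ (by omega)
  have h3 : m r ≤ m r * q := Nat.le_mul_of_pos_right _ hq
  have h4 : m r * (c * q + 4) = c * (m r * q) + 4 * m r := by ring
  have h5 : (c + 9) * (m r * q) = c * (m r * q) + 9 * (m r * q) := by ring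
  omega

variable {m : RR → ℕ} {D : Dim}

/-- The rulers. -/
structure Rul (m : RR → ℕ) (D : Dim) : Prop where
  mK : m .K = D.K
  mX : m .X = D.X
  mY : m .Y = D.X
  mC : m .C = 2 * D.X
  mG : m .G = D.G
  mE : m .E = D.E
  mW : m .W = D.W
  mQ : m .Q = D.Q

theorem W_pos (h : D.Ok) : 1 ≤ D.W := by
  by_contra h0
  have h1 : D.W = 0 := by omega
  have h2 := h.hW
  rw [h1, pow_zero] at h2
  have h3 : D.p ≤ D.p ^ 5 := Nat.le_self_pow (by norm_num) _
  have := h.hXp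
  have := h.hX
  omega

/-- The parameters. -/
def par (m : RR → ℕ) (D : Dim) (w : List Bool) : Par RR :=
  ⟨m, w, D.W, D.L, D.p, 2 ^ D.W / D.p + 1⟩

theorem fits (hm : Rul m D) (w : List Bool) : Fits (par m D w) D :=
  ⟨rfl, rfl, rfl, rfl, hm.mK, hm.mX, hm.mY, hm.mC, hm.mG, hm.mE, hm.mW, hm.mQ⟩

theorem wf_progM : (progM).WF := by decide
theorem wf_progP : (progP).WF := by decide

section cost

variable (hm : Rul m D) (h : D.Ok) {cost : WI VV → ℕ} {T : ℕ}
  (hT : D.W ≤ T) (hc : ∀ j, cost j ≤ T)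

include hm h hT

theorem bd_skE : XP.bd m cost skE ≤ 9 * (D.E * T) := by
  have h1 : XP.bd m cost (WP.loop .W WP.skip : WP RR VV) ≤ (1 + 4) * (D.W * 1) :=
    bd_loop_le le_rfl hm.mW (W_pos h) (by simp [XP.bd])
  have h2 := W_pos h
  exact bd_loop_le (c := 5) (by omega) hm.mE h.hE (by omega)

theorem bd_zE : XP.bd m cost zE ≤ 10 * (D.E * T) := by
  have h1 : XP.bd m cost (WP.loop .W (WP.emit false) : WP RR VV) ≤ (2 + 4) * (D.W * 1) :=
    bd_loop_le le_rfl hm.mW (W_pos h) (by simp [XP.bd])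
  have h2 := W_pos h
  exact bd_loop_le (c := 6) (by omega) hm.mE h.hE (by omega)

theorem ET_pos : 1 ≤ D.E * T := Nat.mul_pos h.hE (by have := W_pos h; omega)

theorem CET_pos : 1 ≤ 2 * D.X * (D.E * T) :=
  Nat.mul_pos (by have := h.hX; omega) (ET_pos hm h hT)

theorem bd_skR : XP.bd m cost skR ≤ 17 * (D.G * (2 * D.X * (D.E * T))) := by
  have h1 : XP.bd m cost (WP.loop .C skE) ≤ (9 + 4) * (2 * D.X * (D.E * T)) :=
    bd_loop_le (ET_pos hm h hT) hm.mC (by have := h.hX; omega) (bd_skE hm h hT)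
  exact bd_loop_le (c := 13) (CET_pos hm h hT) hm.mG h.hG h1

theorem bd_zR : XP.bd m cost zR ≤ 18 * (D.G * (2 * D.X * (D.E * T))) := by
  have h1 : XP.bd m cost (WP.loop .C zE) ≤ (10 + 4) * (2 * D.X * (D.E * T)) :=
    bd_loop_le (ET_pos hm h hT) hm.mC (by have := h.hX; omega) (bd_zE hm h hT)
  exact bd_loop_le (c := 14) (CET_pos hm h hT) hm.mG h.hG h1

include hc

theorem bd_preV : XP.bd m cost preV ≤ 8 * (D.Q * T) := by
  have hT1 : 1 ≤ T := by have := W_pos h; omega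
  have h1 : XP.bd m cost (WP.loop .Q (WP.seq (cp .t .v) (mul .v .v .w))) ≤
      (2 + 4) * (D.Q * T) := by
    refine bd_loop_le hT1 hm.mQ (Q_pos h).le ?_
    have := hc (.cp .t .v)
    have := hc (.mul .v .v .w)
    simp only [XP.bd]
    omega
  have h2 := hc (.one .v)
  have h3 := hc (.cp .v .t)
  have h4 : T ≤ D.Q * T := Nat.le_mul_of_pos_left _ (by have := Q_pos h; omega)
  unfold preV
  simp only [XP.bd] at h1 ⊢
  omega

theorem bd_progM (hK : 1 ≤ D.K) :
    XP.bd m cost progM ≤ 150 * (D.K * (D.Q * (D.G * (2 * D.X * (D.E * T))))) := by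
  have hT1 : 1 ≤ T := by have := W_pos h; omega
  have hX := h.hX
  have hQ := Q_pos h
  have hXQ : D.X ≤ D.Q := by have := h.hXp; unfold Dim.Q; omega
  have e1 := ET_pos hm h hT
  have e2 := CET_pos hm h hT
  set RE := D.G * (2 * D.X * (D.E * T)) with hRE
  have eT1 : T ≤ D.E * T := Nat.le_mul_of_pos_left _ h.hE
  have eT2 : D.E * T ≤ 2 * D.X * (D.E * T) := Nat.le_mul_of_pos_left _ (by omega)
  have eT3 : 2 * D.X * (D.E * T) ≤ RE := Nat.le_mul_of_pos_left _ h.hG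
  have eT4 : RE ≤ D.Q * RE := Nat.le_mul_of_pos_left _ (by omega)
  have eT5 : D.Q * RE ≤ D.K * (D.Q * RE) := Nat.le_mul_of_pos_left _ hK
  have e3 : 1 ≤ RE := by omega
  -- the rows
  have r1 : XP.bd m cost (WP.loop .E slotM) ≤ (3 + 4) * (D.E * T) := by
    refine bd_loop_le hT1 hm.mE h.hE ?_
    have := hc (.rd .z)
    have := hc (.mul .z .z .m)
    have := hc (.wr .z)
    simp only [slotM, XP.bd]
    omega
  have r2 : XP.bd m cost (WP.loop .C (WP.seq (WP.loop .E slotM) (mul .m .m .u))) ≤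
      (8 + 4) * (2 * D.X * (D.E * T)) := by
    refine bd_loop_le e1 hm.mC (by omega) ?_
    have := hc (.mul .m .m .u)
    simp only [XP.bd] at r1 ⊢
    omega
  have r3 : XP.bd m cost (WP.loop .G (WP.seq (cp .m .m0)
      (WP.loop .C (WP.seq (WP.loop .E slotM) (mul .m .m .u))))) ≤ (13 + 4) * RE := by
    refine bd_loop_le e2 hm.mG h.hG ?_
    have := hc (.cp .m .m0)
    simp only [XP.bd] at r2 ⊢
    omega
  have r4 : XP.bd m cost (WP.loop .Q rowM) ≤ (20 + 4) * (D.Q * RE) := by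
    refine bd_loop_le e3 hm.mQ (by omega) ?_
    have := hc (.mul .m0 .m0 .r)
    have := hc (.mul .r .r .v2)
    have := hc (.mul .u .u .w)
    unfold rowM
    simp only [XP.bd] at r3 ⊢
    omega
  -- skips and zeros
  have s0 := bd_skE (cost := cost) hm h hT
  have s1 := bd_skR (cost := cost) hm h hT
  have s2 := bd_zR (cost := cost) hm h hT
  rw [← hRE] at s1 s2
  have hXRE : D.X * RE ≤ D.Q * RE := Nat.mul_le_mul_right _ hXQ
  have s3 : XP.bd m cost (WP.loop .X skR) ≤ (17 + 4) * (D.X * RE) := bd_loop_le e3 hm.mX hX s1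
  have s4 : XP.bd m cost (WP.loop .X (WP.seq skR skE)) ≤ (26 + 4) * (D.X * RE) := by
    refine bd_loop_le e3 hm.mX hX ?_
    simp only [XP.bd] at s0 s1 ⊢
    omega
  have s5 : XP.bd m cost (WP.loop .X zR) ≤ (18 + 4) * (D.X * RE) := bd_loop_le e3 hm.mX hX s2
  have s6 : XP.bd m cost (WP.loop .Q zR) ≤ (18 + 4) * (D.Q * RE) :=
    bd_loop_le e3 hm.mQ (by omega) s2
  have b1 : XP.bd m cost (WP.loop .K blockM) ≤ (122 + 4) * (D.K * (D.Q * RE)) := by
    refine bd_loop_le (by omega) hm.mK hK ?_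
    have := hc (.one .m0)
    have := hc (.cp .r .r0)
    have := hc (.one .u)
    unfold blockM
    simp only [XP.bd] at r4 s3 s4 s5 s6 ⊢
    omega
  have p1 := bd_preV hm h hT hc
  have p2 : XP.bd m cost (WP.loop .X (mul .t .t .v)) ≤ (1 + 4) * (D.X * T) := by
    refine bd_loop_le hT1 hm.mX hX ?_
    have := hc (.mul .t .t .v)
    simp only [XP.bd]
    omega
  have hXT : D.X * T ≤ D.Q * T := Nat.mul_le_mul_right _ hXQ
  have hQT : D.Q * T ≤ D.Q * RE := Nat.mul_le_mul_left _ (by omega)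
  have p3 : XP.bd m cost (WP.loop .W WP.skip : WP RR VV) ≤ (1 + 4) * (D.W * 1) :=
    bd_loop_le le_rfl hm.mW (W_pos h) (by simp [XP.bd])
  have := hc (.mul .v2 .v .v)
  have := hc (.cp .t .v)
  have := hc (.cp .r0 .t)
  unfold progM preM
  simp only [XP.bd] at b1 p1 p2 p3 ⊢
  omega

theorem bd_progP (hK : 1 ≤ D.K) :
    XP.bd m cost progP ≤ 200 * (D.K * (D.Q * (D.G * (2 * D.X * (D.E * T))))) := by
  have hT1 : 1 ≤ T := by have := W_pos h; omega
  have hX := h.hX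
  have hQ := Q_pos h
  have hXQ : D.X ≤ D.Q := by have := h.hXp; unfold Dim.Q; omega
  have e1 := ET_pos hm h hT
  have e2 := CET_pos hm h hT
  set RE := D.G * (2 * D.X * (D.E * T)) with hRE
  have eT1 : T ≤ D.E * T := Nat.le_mul_of_pos_left _ h.hE
  have eX : D.X * (D.E * T) ≤ 2 * D.X * (D.E * T) := Nat.mul_le_mul_right _ (by omega)
  have eX1 : D.E * T ≤ D.X * (D.E * T) := Nat.le_mul_of_pos_left _ hX
  have eT3 : 2 * D.X * (D.E * T) ≤ RE := Nat.le_mul_of_pos_left _ h.hG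
  have eT4 : RE ≤ D.Q * RE := Nat.le_mul_of_pos_left _ (by omega)
  have eT5 : D.Q * RE ≤ D.K * (D.Q * RE) := Nat.le_mul_of_pos_left _ hK
  have e3 : 1 ≤ RE := by omega
  have s0 := bd_skE (cost := cost) hm h hT
  have s1 := bd_skR (cost := cost) hm h hT
  rw [← hRE] at s1
  -- the rows
  have r1 : XP.bd m cost (WP.loop .E slotP) ≤ (3 + 4) * (D.E * T) := by
    refine bd_loop_le hT1 hm.mE h.hE ?_
    have := hc (.rd .z)
    have := hc (.mul .z .z .m)
    have := hc (.wrl .z)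
    simp only [slotP, XP.bd]
    omega
  have r2 : XP.bd m cost (WP.loop .X (WP.seq (WP.loop .E slotP)
      (WP.seq (mul .m .m .u) (mul .u .u .v)))) ≤ (9 + 4) * (D.X * (D.E * T)) := by
    refine bd_loop_le e1 hm.mX hX ?_
    have := hc (.mul .m .m .u)
    have := hc (.mul .u .u .v)
    simp only [XP.bd] at r1 ⊢
    omega
  have r3 : XP.bd m cost (WP.forReg .Y skE) ≤ (9 + 6) * (D.X * (D.E * T)) :=
    bd_forReg_le e1 hm.mY hX s0
  have r4 : XP.bd m cost (WP.forCo .Y skE) ≤ (9 + 9) * (D.X * (D.E * T)) :=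
    bd_forCo_le e1 hm.mY hX s0
  have r5 : XP.bd m cost (WP.loop .G (WP.seq (WP.forReg .Y skE) (WP.seq (cp .m .m0)
      (WP.seq (cp .u .v2) (WP.seq (WP.loop .X (WP.seq (WP.loop .E slotP)
      (WP.seq (mul .m .m .u) (mul .u .u .v)))) (WP.forCo .Y skE)))))) ≤ (48 + 4) * RE := by
    refine bd_loop_le e2 hm.mG h.hG ?_
    have := hc (.cp .m .m0)
    have := hc (.cp .u .v2)
    simp only [XP.bd] at r2 r3 r4 ⊢
    omega
  have r6 : XP.bd m cost (WP.loop .Y rowP) ≤ (54 + 4) * (D.X * RE) := by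
    refine bd_loop_le e3 hm.mY hX ?_
    have := hc (.mul .m0 .m0 .r)
    have := hc (.mul .r .r .v)
    unfold rowP
    simp only [XP.bd] at r5 ⊢
    omega
  have hXRE : D.X * RE ≤ D.Q * RE := Nat.mul_le_mul_right _ hXQ
  have s3 : XP.bd m cost (WP.loop .Q skR) ≤ (17 + 4) * (D.Q * RE) :=
    bd_loop_le e3 hm.mQ (by omega) s1
  have b1 : XP.bd m cost (WP.loop .K blockP) ≤ (102 + 4) * (D.K * (D.Q * RE)) := by
    refine bd_loop_le (by omega) hm.mK hK ?_
    have := hc (.cp .m0 .r0)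
    have := hc (.one .r)
    unfold blockP
    simp only [XP.bd] at r6 s3 ⊢
    omega
  have p1 := bd_preV hm h hT hc
  have p2 : XP.bd m cost (WP.loop .X (WP.seq (mul .t .t .s) (mul .s .s .v))) ≤
      (2 + 4) * (D.X * T) := by
    refine bd_loop_le hT1 hm.mX hX ?_
    have := hc (.mul .t .t .s)
    have := hc (.mul .s .s .v)
    simp only [XP.bd]
    omega
  have p3 : XP.bd m cost (WP.loop .X (WP.seq (cp .s .t) (mul .t .t .w))) ≤
      (2 + 4) * (D.X * T) := by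
    refine bd_loop_le hT1 hm.mX hX ?_
    have := hc (.cp .s .t)
    have := hc (.mul .t .t .w)
    simp only [XP.bd]
    omega
  have hXT : D.X * T ≤ D.Q * T := Nat.mul_le_mul_right _ hXQ
  have hQT : D.Q * T ≤ D.Q * RE := Nat.mul_le_mul_left _ (by omega)
  have p4 : XP.bd m cost (WP.loop .W WP.skip : WP RR VV) ≤ (1 + 4) * (D.W * 1) :=
    bd_loop_le le_rfl hm.mW (W_pos h) (by simp [XP.bd])
  have := hc (.one .t)
  have := hc (.one .s)
  have := hc (.cp .r0 .t)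
  have := hc (.cp .v2 .s)
  unfold progP preP
  simp only [XP.bd] at b1 p1 p2 p3 p4 ⊢
  omega

end cost

/-! Evaluation. -/

theorem wp_one_eq (hw : D.w < D.p) : wp D 1 = D.w := by
  unfold wp
  rw [pow_one, Nat.mod_eq_of_lt hw]

theorem eval_progM (hm : Rul m D) (h : D.Ok) {w : List Bool} (hw : InM D w) (hwp : D.w < D.p)
    (u0 : VV → ℕ) (hu : u0 .w = D.w) : ∃ u1 : VV → ℕ, u1 .w = D.w ∧
      XP.eval m w false (wsem D.W D.L D.p (2 ^ D.W / D.p + 1)) progM ⟨fun _ => 0, 0, [], u0⟩ =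
      ⟨fun _ => 0, (1 + D.K * (D.S1 * D.E)) * D.W, midBits D w, u1⟩ := by
  obtain ⟨u1, h1, h2⟩ := tr_progM (fits hm w) h hw (fun _ => 0) (fun _ => rfl) [] u0
    (by show u0 .w = wp D 1; rw [hu, wp_one_eq hwp])
  refine ⟨u1, by rw [h1.2.2, wp_one_eq hwp], ?_⟩
  rw [Nat.zero_add, List.nil_append] at h2
  exact h2

theorem eval_progP (hm : Rul m D) (h : D.Ok) {w : List Bool} (hw : InP D w) (hwp : D.w < D.p)
    (u0 : VV → ℕ) (hu : u0 .w = D.w) : ∃ u1 : VV → ℕ, u1 .w = D.w ∧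
      XP.eval m w false (wsem D.W D.L D.p (2 ^ D.W / D.p + 1)) progP ⟨fun _ => 0, 0, [], u0⟩ =
      ⟨fun _ => 0, (1 + D.K * (D.S2 * D.E)) * D.W, postBits D w, u1⟩ := by
  obtain ⟨u1, h1, h2⟩ := tr_progP (fits hm w) h hw (fun _ => 0) (fun _ => rfl) [] u0
    (by show u0 .w = wp D 1; rw [hu, wp_one_eq hwp])
  refine ⟨u1, by rw [h1.2.2.1, wp_one_eq hwp], ?_⟩
  rw [Nat.zero_add, List.nil_append] at h2
  exact h2

end Vale.Agent.P338.R2.H207.Fp
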