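import Vale.Agent.P338.R2.H207.Fp.Lang

/-!
Rules for loop programs with word registers.
-/

namespace Vale.Agent.P338.R2.H207.Fp

open H525.Fp
open H525 (zeros slotAt)
open H778 (val bits)
open H898 (XP XS XSem WI wsem)
open WP
open Function (update)

variable {F V : Type} [DecidableEq F] [DecidableEq V] {A : Par F}

/-- `a` does not change the registers `v`, moves the input position from `p` to `p + n`, appends
`out` to the output, and the word registers satisfy `Q` afterwards if they satisfied `P` before. -/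
def Tr (A : Par F) (a : WP F V) (v : F → ℕ) (p n : ℕ) (out : List Bool)
    (P Q : (V → ℕ) → Prop) : Prop :=
  ∀ o u, P u → ∃ u', Q u' ∧ WP.eval A a ⟨v, p, o, u⟩ = ⟨v, p + n, o ++ out, u'⟩

variable {a b : WP F V} {v : F → ℕ} {p n n' : ℕ} {out out' : List Bool}
  {P P' Q Q' R : (V → ℕ) → Prop}

theorem Tr.congr (h : Tr A a v p n out P Q) (hP : ∀ u, P' u → P u) (hn : n = n')
    (ho : out = out') (hQ : ∀ u, Q u → Q' u) : Tr A a v p n' out' P' Q' := by
  subst hn ho
  intro o u hu
  obtain ⟨u', h1, h2⟩ := h o u (hP u hu)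
  exact ⟨u', hQ _ h1, h2⟩

theorem tr_nop : Tr A (nop : WP F V) v p 0 [] P P := by
  intro o u hu
  exact ⟨u, hu, by simp [XP.eval]⟩

theorem tr_emit (x : Bool) : Tr A (emit x : WP F V) v p 0 [x] P P := by
  intro o u hu
  exact ⟨u, hu, by simp [XP.eval]⟩

theorem tr_skip : Tr A (skip : WP F V) v p 1 [] P P := by
  intro o u hu
  exact ⟨u, hu, by simp [XP.eval]⟩

theorem Tr.seq (h : Tr A a v p n out P Q) (h' : Tr A b v (p + n) n' out' Q R) :
    Tr A (WP.seq a b) v p (n + n') (out ++ out') P R := by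
  intro o u hu
  obtain ⟨u1, h1, e1⟩ := h o u hu
  obtain ⟨u2, h2, e2⟩ := h' (o ++ out) u1 h1
  refine ⟨u2, h2, ?_⟩
  have e3 : WP.eval A (WP.seq a b) ⟨v, p, o, u⟩ = WP.eval A b (WP.eval A a ⟨v, p, o, u⟩) := rfl
  rw [e3, e1, e2, Nat.add_assoc, List.append_assoc]

theorem tr_cp {i j : V} (h : ∀ u, P u → Q (update u i (u j))) :
    Tr A (cp i j) v p 0 [] P Q := by
  intro o u hu
  exact ⟨_, h u hu, by rw [WP.eval, XP.eval_cp]; simp⟩

theorem tr_one {i : V} (h : ∀ u, P u → Q (update u i 1)) :
    Tr A (one i) v p 0 [] P Q := by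
  intro o u hu
  exact ⟨_, h u hu, by rw [WP.eval, XP.eval_one]; simp⟩

theorem tr_mul {i j k : V} (h : ∀ u, P u → Q (update u i (mmN A.W A.pp A.mu (u j) (u k)))) :
    Tr A (mul i j k) v p 0 [] P Q := by
  intro o u hu
  exact ⟨_, h u hu, by rw [WP.eval, XP.eval_mul]; simp⟩

theorem tr_rd {i : V} (hl : p + A.W ≤ A.w.length)
    (h : ∀ u, P u → Q (update u i (val ((A.w.drop p).take A.W)))) :
    Tr A (rd i) v p A.W [] P Q := by
  intro o u hu
  exact ⟨_, h u hu, by rw [WP.eval, XP.eval_rd i _ hl]; simp⟩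

theorem tr_wr {i : V} {x : ℕ} (h : ∀ u, P u → u i = x) :
    Tr A (wr i) v p 0 (bits A.W x) P P := by
  intro o u hu
  refine ⟨u, hu, ?_⟩
  rw [← h u hu, WP.eval, XP.eval_wr]
  simp

theorem tr_wrl {i : V} {x : ℕ} (h : ∀ u, P u → u i = x) :
    Tr A (wrl i) v p 0 ((bits A.W x).drop (A.W - A.L)) P P := by
  intro o u hu
  refine ⟨u, hu, ?_⟩
  rw [← h u hu, WP.eval, XP.eval_wrl]
  simp

theorem tr_loop {r : F} (P : ℕ → (V → ℕ) → Prop) (out : ℕ → List Bool) (hv : v r = 0)
    (h : ∀ i < A.m r, Tr A a (update v r i) (p + i * n) n (out i) (P i) (P (i + 1))) :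
    Tr A (loop r a) v p (A.m r * n) ((List.range (A.m r)).flatMap out) (P 0) (P (A.m r)) := by
  intro o u hu
  have key : ∀ i ≤ A.m r, ∃ u', P i u' ∧
      (fun s => (WP.eval A a s).set r ((WP.eval A a s).v r + 1))^[i] ⟨v, p, o, u⟩ =
      ⟨update v r i, p + i * n, o ++ (List.range i).flatMap out, u'⟩ := by
    intro i
    induction i with
    | zero =>
      intro _
      refine ⟨u, hu, ?_⟩
      have : update v r 0 = v := by rw [← hv, Function.update_eq_self]
      simp [this]
    | succ i ih =>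
      intro hi
      obtain ⟨u1, h1, e1⟩ := ih (by omega)
      obtain ⟨u2, h2, e2⟩ := h i (by omega) (o ++ (List.range i).flatMap out) u1 h1
      refine ⟨u2, h2, ?_⟩
      rw [Function.iterate_succ_apply', e1]
      simp only [e2, XS.set, Function.update_idem, Function.update_self]
      simp only [XS.mk.injEq, true_and, and_true]
      refine ⟨by ring, ?_⟩
      rw [List.range_succ, List.flatMap_append]
      simp
  obtain ⟨u', h1, e1⟩ := key _ le_rfl
  refine ⟨u', h1, ?_⟩
  rw [WP.eval, XP.eval]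
  simp only [hv, Nat.sub_zero]
  rw [e1]
  have : update v r 0 = v := by rw [← hv, Function.update_eq_self]
  simp [XS.set, this]

theorem tr_iter (P : ℕ → (V → ℕ) → Prop) (out : ℕ → List Bool) {k : ℕ}
    (h : ∀ i < k, Tr A a v (p + i * n) n (out i) (P i) (P (i + 1))) (o : List Bool) (u : V → ℕ)
    (hu : P 0 u) : ∃ u', P k u' ∧ (WP.eval A a)^[k] ⟨v, p, o, u⟩ =
      ⟨v, p + k * n, o ++ (List.range k).flatMap out, u'⟩ := by
  induction k with
  | zero => exact ⟨u, hu, by simp⟩
  | succ k ih =>
    obtain ⟨u1, h1, e1⟩ := ih (fun i hi => h i (by omega))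
    obtain ⟨u2, h2, e2⟩ := h k (by omega) (o ++ (List.range k).flatMap out) u1 h1
    refine ⟨u2, h2, ?_⟩
    rw [Function.iterate_succ_apply', e1, e2]
    simp only [XS.mk.injEq, true_and, and_true]
    refine ⟨by ring, ?_⟩
    rw [List.range_succ, List.flatMap_append]
    simp

theorem tr_forReg {r : F} (P : ℕ → (V → ℕ) → Prop) (out : ℕ → List Bool)
    (h : ∀ i < v r, Tr A a v (p + i * n) n (out i) (P i) (P (i + 1))) :
    Tr A (forReg r a) v p (v r * n) ((List.range (v r)).flatMap out) (P 0) (P (v r)) :=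
  fun o u hu => tr_iter P out h o u hu

theorem tr_forCo {r : F} (P : ℕ → (V → ℕ) → Prop) (out : ℕ → List Bool)
    (h : ∀ i < A.m r - v r, Tr A a v (p + i * n) n (out i) (P i) (P (i + 1))) :
    Tr A (forCo r a) v p ((A.m r - v r) * n) ((List.range (A.m r - v r)).flatMap out) (P 0)
      (P (A.m r - v r)) :=
  fun o u hu => tr_iter P out h o u hu

/-! Slots. -/

/-- The same with positions counted in slots. -/
def TrS (A : Par F) (a : WP F V) (v : F → ℕ) (t n : ℕ) (out : List Bool)
    (P Q : (V → ℕ) → Prop) : Prop := Tr A a v (t * A.W) (n * A.W) out P Q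

variable {t : ℕ}

theorem TrS.congr (h : TrS A a v t n out P Q) (hP : ∀ u, P' u → P u) (hn : n = n')
    (ho : out = out') (hQ : ∀ u, Q u → Q' u) : TrS A a v t n' out' P' Q' :=
  Tr.congr h hP (by rw [hn]) ho hQ

theorem TrS.seq (h : TrS A a v t n out P Q) (h' : TrS A b v (t + n) n' out' Q R) :
    TrS A (WP.seq a b) v t (n + n') (out ++ out') P R := by
  have h2 : Tr A b v (t * A.W + n * A.W) (n' * A.W) out' Q R := by
    rw [← Nat.add_mul]
    exact h'
  exact (Tr.seq h h2).congr (fun _ h => h) (by ring) rfl (fun _ h => h)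

theorem trS_zero (h : Tr A a v (t * A.W) 0 out P Q) : TrS A a v t 0 out P Q :=
  h.congr (fun _ h => h) (by simp) rfl (fun _ h => h)

theorem trS_one (h : Tr A a v (t * A.W) A.W out P Q) : TrS A a v t 1 out P Q :=
  h.congr (fun _ h => h) (by simp) rfl (fun _ h => h)

theorem trS_loop {r : F} (P : ℕ → (V → ℕ) → Prop) (out : ℕ → List Bool) (hv : v r = 0)
    (h : ∀ i < A.m r, TrS A a (update v r i) (t + i * n) n (out i) (P i) (P (i + 1))) :
    TrS A (loop r a) v t (A.m r * n) ((List.range (A.m r)).flatMap out) (P 0) (P (A.m r)) := by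
  have := tr_loop (A := A) (a := a) (v := v) (r := r) (p := t * A.W) (n := n * A.W) P out hv (by
    intro i hi
    have h1 := h i hi
    have e : t * A.W + i * (n * A.W) = (t + i * n) * A.W := by ring
    rw [e]
    exact h1)
  exact this.congr (fun _ h => h) (by ring) rfl (fun _ h => h)

theorem trS_forReg {r : F} (P : ℕ → (V → ℕ) → Prop) (out : ℕ → List Bool)
    (h : ∀ i < v r, TrS A a v (t + i * n) n (out i) (P i) (P (i + 1))) :
    TrS A (forReg r a) v t (v r * n) ((List.range (v r)).flatMap out) (P 0) (P (v r)) := by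
  have := tr_forReg (A := A) (a := a) (v := v) (r := r) (p := t * A.W) (n := n * A.W) P out (by
    intro i hi
    have h1 := h i hi
    have e : t * A.W + i * (n * A.W) = (t + i * n) * A.W := by ring
    rw [e]
    exact h1)
  exact this.congr (fun _ h => h) (by ring) rfl (fun _ h => h)

theorem trS_forCo {r : F} (P : ℕ → (V → ℕ) → Prop) (out : ℕ → List Bool)
    (h : ∀ i < A.m r - v r, TrS A a v (t + i * n) n (out i) (P i) (P (i + 1))) :
    TrS A (forCo r a) v t ((A.m r - v r) * n) ((List.range (A.m r - v r)).flatMap out) (P 0)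
      (P (A.m r - v r)) := by
  have := tr_forCo (A := A) (a := a) (v := v) (r := r) (p := t * A.W) (n := n * A.W) P out (by
    intro i hi
    have h1 := h i hi
    have e : t * A.W + i * (n * A.W) = (t + i * n) * A.W := by ring
    rw [e]
    exact h1)
  exact this.congr (fun _ h => h) (by ring) rfl (fun _ h => h)

/-! Skipping and zeros. -/

theorem trS_skipLoop {r : F} (hv : v r = 0)
    (h : ∀ i t, TrS A a (update v r i) t n [] P P) : TrS A (loop r a) v t (A.m r * n) [] P P :=
  (trS_loop (fun _ => P) (fun _ => []) hv (fun i _ => h i _)).congr (fun _ h => h) rfl (by simp)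
    (fun _ h => h)

theorem trS_skipW {r : F} (hr : A.m r = A.W) (hv : v r = 0) :
    TrS A (loop r skip) v t 1 [] P P := by
  have := tr_loop (A := A) (a := skip) (v := v) (r := r) (p := t * A.W) (n := 1) (fun _ => P)
    (fun _ => []) hv (fun i _ => tr_skip)
  exact this.congr (fun _ h => h) (by rw [hr]; ring) (by simp) (fun _ h => h)

theorem trS_zeroW {r : F} (hr : A.m r = A.W) (hv : v r = 0) :
    TrS A (loop r (emit false)) v t 0 (zeros A.W) P P := by
  have := tr_loop (A := A) (a := emit false) (v := v) (r := r) (p := t * A.W) (n := 0)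
    (fun _ => P) (fun _ => [false]) hv (fun i _ => tr_emit false)
  refine this.congr (fun _ h => h) (by simp) ?_ (fun _ h => h)
  rw [hr]
  unfold zeros
  generalize A.W = k
  induction k with
  | zero => rfl
  | succ k ih => rw [List.range_succ, List.flatMap_append, ih, List.replicate_succ']; rfl

theorem flatMap_zeros (n k : ℕ) :
    ((List.range n).flatMap fun _ => zeros k) = zeros (n * k) := by
  unfold zeros
  induction n with
  | zero => simp
  | succ n ih =>
    rw [List.range_succ, List.flatMap_append, ih]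
    simp only [List.flatMap_cons, List.flatMap_nil, List.append_nil]
    rw [← List.replicate_add]
    congr 1
    ring

theorem trS_zeroLoop {r : F} {k : ℕ} (hv : v r = 0)
    (h : ∀ i t, TrS A a (update v r i) t 0 (zeros k) P P) :
    TrS A (loop r a) v t 0 (zeros (A.m r * k)) P P :=
  (trS_loop (n := 0) (fun _ => P) (fun _ => zeros k) hv (fun i _ => h i _)).congr (fun _ h => h)
    (by simp) (flatMap_zeros _ _) (fun _ h => h)

end Vale.Agent.P338.R2.H207.Fp
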