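import Vale.Agent.P338.R2.H898.XWord

/-!
Notation for loop programs with word registers.
-/

namespace Vale.Agent.P338.R2.H207.Fp

open H898

/-- Loop programs with word registers. -/
abbrev WP (F V : Type) := XP F Bool (WI V)

/-- Parameters. -/
structure Par (F : Type) where
  m : F → ℕ
  w : List Bool
  W : ℕ
  L : ℕ
  pp : ℕ
  mu : ℕ

namespace WP

variable {F V : Type} [DecidableEq F] [DecidableEq V]

abbrev nop : WP F V := XP.nop
abbrev emit (b : Bool) : WP F V := XP.emit b
abbrev skip : WP F V := XP.skip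
abbrev seq (a b : WP F V) : WP F V := XP.seq a b
abbrev loop (r : F) (a : WP F V) : WP F V := XP.loop r a
abbrev forReg (r : F) (a : WP F V) : WP F V := XP.forReg r a
abbrev forCo (r : F) (a : WP F V) : WP F V := XP.forCo r a
abbrev rd (i : V) : WP F V := XP.ext (.rd i)
abbrev wr (i : V) : WP F V := XP.ext (.wr i)
abbrev wrl (i : V) : WP F V := XP.ext (.wrl i)
abbrev mul (i j k : V) : WP F V := XP.ext (.mul i j k)
abbrev cp (i j : V) : WP F V := XP.ext (.cp i j)
abbrev one (i : V) : WP F V := XP.ext (.one i)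

/-- Evaluation. -/
abbrev eval (A : Par F) (a : WP F V) (s : XS F Bool (V → ℕ)) : XS F Bool (V → ℕ) :=
  XP.eval A.m A.w false (wsem A.W A.L A.pp A.mu) a s

end WP

end Vale.Agent.P338.R2.H207.Fp
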