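import Vale.Agent.P338.R2.H525.Fp.Spec

/-!
Recurrences for the factors of the middle and of the final pass.
-/

namespace Vale.Agent.P338.R2.H207.Fp

open H525.Fp

theorem mod_mul (p w a b : ℕ) : w ^ a % p * (w ^ b % p) % p = w ^ (a + b) % p := by
  rw [← Nat.mul_mod, pow_add]

theorem mod_mul' (p w a : ℕ) : w ^ a % p * w % p = w ^ (a + 1) % p := by
  rw [Nat.mod_mul_mod, pow_succ]

theorem tri_succ (d : ℕ) : tri (d + 1) = tri d + d := by
  unfold tri
  rw [Nat.add_sub_cancel]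
  have h1 : (d + 1) * d = d * (d - 1) + d * 2 := by
    rcases Nat.eq_zero_or_pos d with h | h
    · subst h; rfl
    · obtain ⟨e, rfl⟩ := Nat.exists_eq_succ_of_ne_zero h.ne'
      simp only [Nat.succ_eq_add_one, Nat.add_sub_cancel]
      ring
  rw [h1, Nat.add_mul_div_right _ _ (by norm_num)]

variable (D : Dim)

/-- the inverse of `w` -/
def vv : ℕ := D.w ^ (D.Q - 1) % D.p
/-- powers of the inverse of `w` -/
def vp (n : ℕ) : ℕ := D.w ^ ((D.Q - 1) * n) % D.p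
/-- powers of `w` -/
def wp (n : ℕ) : ℕ := D.w ^ n % D.p

theorem vp_add (a b : ℕ) : vp D a * vp D b % D.p = vp D (a + b) := by
  unfold vp
  rw [mod_mul, Nat.mul_add]

theorem vp_one : vp D 1 = vv D := by
  unfold vp vv
  rw [Nat.mul_one]

theorem wp_succ (a : ℕ) : wp D a * D.w % D.p = wp D (a + 1) := mod_mul' _ _ _

theorem wp_add (a b : ℕ) : wp D a * wp D b % D.p = wp D (a + b) := mod_mul _ _ _ _

theorem mid_eq (q c : ℕ) : D.mid q c = wp D (q * (c + (D.Q - 1) * (D.X + q))) := rfl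

theorem mid_zero_zero : D.mid 0 0 = 1 % D.p := by
  unfold Dim.mid
  simp

theorem mid_succ (q c : ℕ) : D.mid q c * wp D q % D.p = D.mid q (c + 1) := by
  rw [mid_eq, mid_eq, wp_add]
  congr 1
  ring

theorem mid_row (q : ℕ) : D.mid q 0 * vp D (D.X + 1 + 2 * q) % D.p = D.mid (q + 1) 0 := by
  unfold Dim.mid vp
  rw [mod_mul]
  congr 2
  ring

theorem vp_two (q : ℕ) : vp D (D.X + 1 + 2 * q) * vp D 2 % D.p = vp D (D.X + 1 + 2 * (q + 1)) := by
  rw [vp_add]
  congr 1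

theorem post_eq (x y : ℕ) : D.post x y = vp D (tri (D.X - x) + tri y) := rfl

theorem post_row (y : ℕ) : D.post 0 y * vp D y % D.p = D.post 0 (y + 1) := by
  rw [post_eq, post_eq, vp_add, tri_succ, Nat.add_assoc]

variable {D}

theorem w_pow_Q (h : D.Ok) : D.w ^ D.Q % D.p = 1 := by
  have hp := h.hp
  have hX := h.hX
  have h2 := h.hXp
  have h1 : (D.w : ZMod D.p) ^ D.Q = 1 := by
    unfold Dim.Q
    rw [← h.hw]
    exact pow_orderOf_eq_one _
  have h3 : ((D.w ^ D.Q : ℕ) : ZMod D.p) = ((1 : ℕ) : ZMod D.p) := by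
    push_cast
    exact h1
  have h4 := (ZMod.natCast_eq_natCast_iff' _ _ _).mp h3
  rw [h4]
  exact Nat.mod_eq_of_lt (by omega)

theorem w_pow_Q_mul (h : D.Ok) (n : ℕ) : D.w ^ (D.Q * n) % D.p = 1 % D.p := by
  rw [pow_mul, Nat.pow_mod, w_pow_Q h, one_pow]

theorem vp_mul_wp (h : D.Ok) (a b : ℕ) : vp D (a + b) * wp D b % D.p = vp D a := by
  have hX := h.hX
  have h2 := h.hXp
  unfold vp wp
  rw [mod_mul]
  have h3 : D.Q - 1 + 1 = D.Q := by unfold Dim.Q; omega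
  have h4 : (D.Q - 1) * (a + b) + b = (D.Q - 1) * a + D.Q * b := by
    calc (D.Q - 1) * (a + b) + b = (D.Q - 1) * a + (D.Q - 1 + 1) * b := by ring
      _ = _ := by rw [h3]
  rw [h4, pow_add, Nat.mul_mod, w_pow_Q_mul h, ← Nat.mul_mod, Nat.mul_one]

theorem wp_mul_vv (h : D.Ok) (a : ℕ) : wp D (a + 1) * vv D % D.p = wp D a := by
  have hX := h.hX
  have h2 := h.hXp
  unfold vv wp
  rw [mod_mul]
  have h3 : a + 1 + (D.Q - 1) = a + D.Q * 1 := by unfold Dim.Q; omega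
  rw [h3, pow_add, Nat.mul_mod, w_pow_Q_mul h, ← Nat.mul_mod, Nat.mul_one]

theorem post_succ (h : D.Ok) {x y : ℕ} (hx : x < D.X) :
    D.post x y * wp D (D.X - 1 - x) % D.p = D.post (x + 1) y := by
  rw [post_eq, post_eq]
  have h1 : D.X - x = (D.X - (x + 1)) + 1 := by omega
  rw [h1, tri_succ]
  have h2 : D.X - (x + 1) = D.X - 1 - x := by omega
  rw [show tri (D.X - (x + 1)) + (D.X - (x + 1)) + tri y =
    tri (D.X - (x + 1)) + tri y + (D.X - 1 - x) by omega]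
  exact vp_mul_wp h _ _

theorem lt_p (h : D.Ok) : 0 < D.p := h.hp.pos

theorem wp_lt (h : D.Ok) (n : ℕ) : wp D n < D.p := Nat.mod_lt _ (lt_p h)
theorem vp_lt (h : D.Ok) (n : ℕ) : vp D n < D.p := Nat.mod_lt _ (lt_p h)
theorem mid_lt (h : D.Ok) (q c : ℕ) : D.mid q c < D.p := Nat.mod_lt _ (lt_p h)
theorem post_lt (h : D.Ok) (x y : ℕ) : D.post x y < D.p := Nat.mod_lt _ (lt_p h)

end Vale.Agent.P338.R2.H207.Fp
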