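import Vale.Agent.P338.R2.H207.Fp.Hoare
import Vale.Agent.P338.R2.H207.Fp.Num
import Vale.Agent.P338.R2.H101.FpNum

/-!
The middle pass.
-/

namespace Vale.Agent.P338.R2.H207.Fp

open H525.Fp
open H525 (zeros slotAt)
open H778 (val bits)
open WP
open Function (update)

/-- The rulers. -/
inductive RR
  | K | X | Y | C | G | E | W | Q
  deriving DecidableEq

instance : Fintype RR := ⟨{.K, .X, .Y, .C, .G, .E, .W, .Q}, by
  intro x
  cases x <;> simp⟩

/-- The word registers. -/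
inductive VV
  | z | m | m0 | r | r0 | u | v | v2 | w | t | s
  deriving DecidableEq

instance : Fintype VV := ⟨{.z, .m, .m0, .r, .r0, .u, .v, .v2, .w, .t, .s}, by
  intro x
  cases x <;> simp⟩

/-- The rulers and parameters are those of `D`. -/
structure Fits (A : Par RR) (D : Dim) : Prop where
  hW : A.W = D.W
  hL : A.L = D.L
  hp : A.pp = D.p
  hmu : A.mu = 2 ^ D.W / D.p + 1
  mK : A.m .K = D.K
  mX : A.m .X = D.X
  mY : A.m .Y = D.X
  mC : A.m .C = 2 * D.X
  mG : A.m .G = D.G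
  mE : A.m .E = D.E
  mW : A.m .W = D.W
  mQ : A.m .Q = D.Q

theorem pow_bound {D : Dim} (h : D.Ok) (i : ℕ) (hi : i ≤ 5) : D.p ^ i ≤ 2 ^ D.W :=
  (Nat.pow_le_pow_right (lt_p h) hi).trans h.hW

theorem mm_small {D : Dim} (h : D.Ok) {x y : ℕ} (hx : x < D.p) (hy : y < D.p) :
    mmN D.W D.p (2 ^ D.W / D.p + 1) x y = x * y % D.p := by
  refine H101.FpNum.mmN_eq (lt_p h) ?_
  calc x * y * D.p < D.p * D.p * D.p :=
        Nat.mul_lt_mul_of_pos_right (Nat.mul_lt_mul'' hx hy) (lt_p h)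
    _ = D.p ^ 3 := by ring
    _ ≤ _ := pow_bound h 3 (by norm_num)

theorem mm_slot {D : Dim} (h : D.Ok) {x y : ℕ} (hx : x * D.p * D.p ≤ 2 ^ D.W) (hy : y < D.p) :
    mmN D.W D.p (2 ^ D.W / D.p + 1) x y = x * y % D.p := by
  refine H101.FpNum.mmN_eq (lt_p h) ?_
  rcases Nat.eq_zero_or_pos x with h0 | h0
  · subst h0
    simp
  · calc x * y * D.p < x * D.p * D.p :=
          Nat.mul_lt_mul_of_pos_right (Nat.mul_lt_mul_of_pos_left hy h0) (lt_p h)
      _ ≤ _ := hx

variable {A : Par RR} {D : Dim}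

theorem tr_mul_small (hA : Fits A D) (h : D.Ok) {i j k : VV} {x y z : ℕ} {v : RR → ℕ} {p : ℕ}
    {P Q : (VV → ℕ) → Prop} (hx : x < D.p) (hy : y < D.p) (hz : x * y % D.p = z)
    (hP : ∀ u, P u → u j = x ∧ u k = y ∧ Q (update u i z)) :
    Tr A (mul i j k) v p 0 [] P Q := by
  refine tr_mul (fun u hu => ?_)
  obtain ⟨h1, h2, h3⟩ := hP u hu
  rw [hA.hW, hA.hp, hA.hmu, h1, h2, mm_small h hx hy, hz]
  exact h3

/-! Skipping rows. -/

/-- skip `E` slots -/
def skE : WP RR VV := loop .E (loop .W skip)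
/-- skip `R E` slots -/
def skR : WP RR VV := loop .G (loop .C skE)
/-- `E W` zeros -/
def zE : WP RR VV := loop .E (loop .W (emit false))
/-- `R E W` zeros -/
def zR : WP RR VV := loop .G (loop .C zE)

theorem trS_skE (hA : Fits A D) {v : RR → ℕ} {t : ℕ} {P : (VV → ℕ) → Prop} (hE : v .E = 0)
    (hW : v .W = 0) : TrS A skE v t D.E [] P P :=
  (trS_skipLoop hE (fun i t => trS_skipW (by rw [hA.mW, hA.hW]) (by simp [hW]))).congr
    (fun _ h => h) (by rw [hA.mE, Nat.mul_one]) rfl (fun _ h => h)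

theorem trS_skR (hA : Fits A D) {v : RR → ℕ} {t : ℕ} {P : (VV → ℕ) → Prop} (hG : v .G = 0)
    (hC : v .C = 0) (hE : v .E = 0) (hW : v .W = 0) : TrS A skR v t (D.R * D.E) [] P P := by
  refine (trS_skipLoop hG (fun i t => trS_skipLoop (by simp [hC]) (fun j t =>
    trS_skE hA (by simp [hE]) (by simp [hW])))).congr
    (fun _ h => h) ?_ rfl (fun _ h => h)
  rw [hA.mG, hA.mC]
  unfold Dim.R
  ring

theorem trS_zE (hA : Fits A D) {v : RR → ℕ} {t : ℕ} {P : (VV → ℕ) → Prop} (hE : v .E = 0)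
    (hW : v .W = 0) : TrS A zE v t 0 (zeros (D.E * D.W)) P P :=
  (trS_zeroLoop hE (fun i t => trS_zeroW (by rw [hA.mW, hA.hW]) (by simp [hW]))).congr
    (fun _ h => h) rfl (by rw [hA.mE, hA.hW]) (fun _ h => h)

theorem trS_zR (hA : Fits A D) {v : RR → ℕ} {t : ℕ} {P : (VV → ℕ) → Prop} (hG : v .G = 0)
    (hC : v .C = 0) (hE : v .E = 0) (hW : v .W = 0) :
    TrS A zR v t 0 (zeros (D.R * D.E * D.W)) P P := by
  refine (trS_zeroLoop hG (fun i t => trS_zeroLoop (by simp [hC]) (fun j t =>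
    trS_zE hA (by simp [hE]) (by simp [hW])))).congr
    (fun _ h => h) rfl ?_ (fun _ h => h)
  rw [hA.mG, hA.mC]
  unfold Dim.R
  congr 1
  ring

/-! The powers of the inverse. -/

/-- computes `v = w ^ (Q - 1)` -/
def preV : WP RR VV :=
  seq (one .v) (seq (loop .Q (seq (cp .t .v) (mul .v .v .w))) (cp .v .t))

theorem one_eq (h : D.Ok) : wp D 0 = 1 := by
  unfold wp
  rw [pow_zero]
  exact Nat.mod_eq_of_lt (by have := h.hXp; have := h.hX; omega)

theorem vp_zero (h : D.Ok) : vp D 0 = 1 := by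
  unfold vp
  rw [Nat.mul_zero, pow_zero]
  exact Nat.mod_eq_of_lt (by have := h.hXp; have := h.hX; omega)

theorem Q_pos (h : D.Ok) : 1 < D.Q := by
  have := h.hXp
  have := h.hX
  unfold Dim.Q
  omega

theorem tr_preV (hA : Fits A D) (h : D.Ok) {v : RR → ℕ} {p : ℕ} (hQ : v .Q = 0) :
    Tr A preV v p 0 [] (fun u => u .w = wp D 1) (fun u => u .w = wp D 1 ∧ u .v = vp D 1) := by
  have h1 : Tr A (one .v : WP RR VV) v p 0 [] (fun u => u .w = wp D 1)
      (fun u => u .w = wp D 1 ∧ u .v = wp D 0) := tr_one (fun u hu => by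
    simp only [Function.update_self, ne_eq, reduceCtorEq, not_false_eq_true,
      Function.update_of_ne]
    exact ⟨hu, (one_eq h).symm⟩)
  have h2 := tr_loop (A := A) (a := seq (cp .t .v) (mul .v .v .w)) (v := v) (r := RR.Q)
    (p := p) (n := 0) (fun i (u : VV → ℕ) => u .w = wp D 1 ∧ u .v = wp D i ∧
      (1 ≤ i → u .t = wp D (i - 1))) (fun _ => []) hQ (by
      intro i hi
      have a1 : Tr A (cp .t .v : WP RR VV) (update v .Q i) (p + i * 0) 0 []
          (fun u => u .w = wp D 1 ∧ u .v = wp D i ∧ (1 ≤ i → u .t = wp D (i - 1)))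
          (fun u => u .w = wp D 1 ∧ u .v = wp D i ∧ u .t = wp D i) :=
        tr_cp (fun u hu => by
          obtain ⟨h1, h2, -⟩ := hu
          simp [h1, h2])
      have a2 : Tr A (mul .v .v .w : WP RR VV) (update v .Q i) (p + i * 0 + 0) 0 []
          (fun u => u .w = wp D 1 ∧ u .v = wp D i ∧ u .t = wp D i)
          (fun u => u .w = wp D 1 ∧ u .v = wp D (i + 1) ∧ (1 ≤ i + 1 → u .t = wp D i)) :=
        tr_mul_small hA h (wp_lt h i) (wp_lt h 1) (wp_add D i 1) (fun u hu => by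
          obtain ⟨h1, h2, h3⟩ := hu
          simp [h1, h2, h3])
      exact a1.seq a2)
  have h3 : Tr A (cp .v .t : WP RR VV) v (p + A.m .Q * 0) 0 []
      (fun u => u .w = wp D 1 ∧ u .v = wp D (A.m .Q) ∧ (1 ≤ A.m .Q → u .t = wp D (A.m .Q - 1)))
      (fun u => u .w = wp D 1 ∧ u .v = vp D 1) := tr_cp (fun u hu => by
    obtain ⟨h1, h2, h3⟩ := hu
    rw [hA.mQ] at h3
    have h4 := h3 (Q_pos h).le
    simp only [Function.update_self, ne_eq, reduceCtorEq, not_false_eq_true,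
      Function.update_of_ne]
    refine ⟨h1, ?_⟩
    rw [h4]
    unfold wp vp
    rw [Nat.mul_one])
  refine (h1.seq (Tr.seq (h2.congr (fun u hu => ⟨hu.1, hu.2, fun h => by omega⟩) rfl rfl
    (fun _ h => h)) h3)).congr (fun _ h => h) (by simp) (by simp) (fun _ h => h)

/-! The constants of the middle pass. -/

/-- the constants -/
def MC (D : Dim) (u : VV → ℕ) : Prop :=
  u .r0 = vp D (D.X + 1) ∧ u .v2 = vp D 2 ∧ u .w = wp D 1

/-- computes `v2 = v ^ 2`, `r0 = v ^ (X + 1)` -/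
def preM : WP RR VV :=
  seq preV (seq (mul .v2 .v .v) (seq (cp .t .v) (seq (loop .X (mul .t .t .v)) (cp .r0 .t))))

theorem tr_preM (hA : Fits A D) (h : D.Ok) {v : RR → ℕ} {p : ℕ} (hQ : v .Q = 0) (hX : v .X = 0) :
    Tr A preM v p 0 [] (fun u => u .w = wp D 1) (MC D) := by
  have h1 := tr_preV (p := p) hA h hQ
  have h2 : Tr A (mul .v2 .v .v : WP RR VV) v p 0 []
      (fun u => u .w = wp D 1 ∧ u .v = vp D 1)
      (fun u => u .w = wp D 1 ∧ u .v = vp D 1 ∧ u .v2 = vp D 2) :=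
    tr_mul_small hA h (vp_lt h 1) (vp_lt h 1) (vp_add D 1 1) (fun u hu => by
      obtain ⟨h1, h2⟩ := hu
      simp [h1, h2])
  have h3 : Tr A (cp .t .v : WP RR VV) v p 0 []
      (fun u => u .w = wp D 1 ∧ u .v = vp D 1 ∧ u .v2 = vp D 2)
      (fun u => u .w = wp D 1 ∧ u .v = vp D 1 ∧ u .v2 = vp D 2 ∧ u .t = vp D (0 + 1)) :=
    tr_cp (fun u hu => by
      obtain ⟨h1, h2, h3⟩ := hu
      simp [h1, h2, h3])
  have h4 := tr_loop (A := A) (a := mul .t .t .v) (v := v) (r := RR.X)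
    (p := p) (n := 0) (fun i (u : VV → ℕ) => u .w = wp D 1 ∧ u .v = vp D 1 ∧ u .v2 = vp D 2 ∧
      u .t = vp D (i + 1)) (fun _ => []) hX (by
      intro i hi
      exact tr_mul_small hA h (vp_lt h (i + 1)) (vp_lt h 1) (vp_add D (i + 1) 1) (fun u hu => by
        obtain ⟨h1, h2, h3, h4⟩ := hu
        simp [h1, h2, h3, h4]))
  have h5 : Tr A (cp .r0 .t : WP RR VV) v p 0 []
      (fun u => u .w = wp D 1 ∧ u .v = vp D 1 ∧ u .v2 = vp D 2 ∧ u .t = vp D (A.m .X + 1))
      (MC D) := tr_cp (fun u hu => by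
    obtain ⟨h1, h2, h3, h4⟩ := hu
    unfold MC
    rw [hA.mX] at h4
    simp [h1, h3, h4])
  rw [Nat.mul_zero] at h4
  exact (h1.seq (h2.seq (h3.seq (h4.seq h5)))).congr (fun _ h => h) (by simp) (by simp)
    (fun _ h => h)

/-! The middle pass. -/

/-- one slot -/
def slotM : WP RR VV := seq (rd .z) (seq (mul .z .z .m) (wr .z))

/-- one row -/
def rowM : WP RR VV :=
  seq (loop .G (seq (cp .m .m0) (loop .C (seq (loop .E slotM) (mul .m .m .u)))))
    (seq (mul .m0 .m0 .r) (seq (mul .r .r .v2) (mul .u .u .w)))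

/-- one block -/
def blockM : WP RR VV :=
  seq (one .m0) (seq (cp .r .r0) (seq (one .u) (seq (loop .X skR) (seq (loop .Q rowM)
    (seq (loop .X (seq skR skE)) (seq (loop .X zR) (loop .Q zR)))))))

/-- The middle pass. -/
def progM : WP RR VV := seq preM (seq (loop .W skip) (loop .K blockM))

/-- The invariant: `q` the row, `c` the column. -/
def MI (D : Dim) (q c : ℕ) (u : VV → ℕ) : Prop :=
  MC D u ∧ u .m0 = D.mid q 0 ∧ u .r = vp D (D.X + 1 + 2 * q) ∧ u .u = wp D q ∧ u .m = D.mid q c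

/-- The same without `m`. -/
def MJ (D : Dim) (q : ℕ) (u : VV → ℕ) : Prop :=
  MC D u ∧ u .m0 = D.mid q 0 ∧ u .r = vp D (D.X + 1 + 2 * q) ∧ u .u = wp D q

theorem trS_slotM (hA : Fits A D) (h : D.Ok) (v : RR → ℕ) (t q c : ℕ)
    (hl : (t + 1) * D.W ≤ A.w.length)
    (hb : val (slotAt D.W A.w t) * D.p * D.p ≤ 2 ^ D.W) :
    TrS A slotM v t 1 (bits D.W (val (slotAt D.W A.w t) * D.mid q c % D.p)) (MI D q c)
      (MI D q c) := by
  set x := val (slotAt D.W A.w t) with hx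
  have h1 : Tr A (rd .z : WP RR VV) v (t * A.W) A.W [] (MI D q c)
      (fun u => MI D q c u ∧ u .z = x) := by
    refine tr_rd (by rw [hA.hW]; calc _ = (t + 1) * D.W := by ring
      _ ≤ _ := hl) (fun u hu => ?_)
    rw [hA.hW]
    obtain ⟨⟨h1, h2, h3⟩, h4, h5, h6, h7⟩ := hu
    simp only [MI, MC, Function.update_self, ne_eq, reduceCtorEq, not_false_eq_true,
      Function.update_of_ne]
    exact ⟨⟨⟨h1, h2, h3⟩, h4, h5, h6, h7⟩, rfl⟩
  have h2 : Tr A (mul .z .z .m : WP RR VV) v (t * A.W + A.W) 0 []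
      (fun u => MI D q c u ∧ u .z = x)
      (fun u => MI D q c u ∧ u .z = x * D.mid q c % D.p) := by
    refine tr_mul (fun u hu => ?_)
    obtain ⟨⟨⟨h1, h2, h3⟩, h4, h5, h6, h7⟩, h8⟩ := hu
    rw [hA.hW, hA.hp, hA.hmu, h8, h7, mm_slot h hb (mid_lt h q c)]
    simp only [MI, MC, Function.update_self, ne_eq, reduceCtorEq, not_false_eq_true,
      Function.update_of_ne]
    exact ⟨⟨⟨h1, h2, h3⟩, h4, h5, h6, h7⟩, trivial⟩
  have h3 : Tr A (wr .z : WP RR VV) v (t * A.W + A.W + 0) 0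
      (bits A.W (x * D.mid q c % D.p)) (fun u => MI D q c u ∧ u .z = x * D.mid q c % D.p)
      (fun u => MI D q c u ∧ u .z = x * D.mid q c % D.p) :=
    tr_wr (fun u hu => hu.2)
  refine trS_one ((h1.seq (h2.seq h3)).congr (fun _ h => h) (by simp) ?_ (fun _ h => h.1))
  rw [hA.hW]
  simp

/-- The bound on the slots. -/
def SlotsOk (D : Dim) (w : List Bool) (S : ℕ) : Prop :=
  (1 + D.K * S * D.E) * D.W ≤ w.length

theorem pos1_lt {k q g c e : ℕ} (hk : k < D.K) (hq : q < D.Q) (hg : g < D.G)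
    (hc : c < 2 * D.X) (he : e < D.E) : D.pos1 k (D.X + q) g c e + 1 ≤ D.K * D.S1 * D.E := by
  unfold Dim.pos1
  have h1 : g * (2 * D.X) + c + 1 ≤ D.R := by
    calc g * (2 * D.X) + c + 1 ≤ g * (2 * D.X) + 2 * D.X := by omega
      _ = (g + 1) * (2 * D.X) := by ring
      _ ≤ D.G * (2 * D.X) := Nat.mul_le_mul_right _ hg
      _ = D.R := by unfold Dim.R; ring
  have h2 : (D.X + q) * D.R + D.R ≤ (D.X + D.Q) * D.R := by
    calc (D.X + q) * D.R + D.R = (D.X + q + 1) * D.R := by ring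
      _ ≤ _ := Nat.mul_le_mul_right _ (by omega)
  have h3 : k * D.S1 + D.S1 ≤ D.K * D.S1 := by
    calc k * D.S1 + D.S1 = (k + 1) * D.S1 := by ring
      _ ≤ _ := Nat.mul_le_mul_right _ hk
  have h4 : (D.X + D.Q) * D.R ≤ D.S1 := by unfold Dim.S1; omega
  have h5 : k * D.S1 + (D.X + q) * D.R + g * (2 * D.X) + c + 1 ≤ D.K * D.S1 := by omega
  calc (k * D.S1 + (D.X + q) * D.R + g * (2 * D.X) + c) * D.E + e + 1
      ≤ (k * D.S1 + (D.X + q) * D.R + g * (2 * D.X) + c) * D.E + D.E := by omega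
    _ = (k * D.S1 + (D.X + q) * D.R + g * (2 * D.X) + c + 1) * D.E := by ring
    _ ≤ _ := Nat.mul_le_mul_right _ h5

theorem MI_upd {q c : ℕ} {u : VV → ℕ} (hu : MI D q c u) :
    MI D q (c + 1) (update u .m (D.mid q (c + 1))) := by
  obtain ⟨⟨h1, h2, h3⟩, h4, h5, h6, h7⟩ := hu
  simp only [MI, MC, Function.update_self, ne_eq, reduceCtorEq, not_false_eq_true,
    Function.update_of_ne]
  exact ⟨⟨h1, h2, h3⟩, h4, h5, h6, trivial⟩

/-- The hypotheses on the input. -/
structure InM (D : Dim) (w : List Bool) : Prop where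
  hl : (1 + D.K * D.S1 * D.E) * D.W ≤ w.length
  hb : ∀ k < D.K, ∀ q < D.Q, ∀ g < D.G, ∀ c < 2 * D.X, ∀ e < D.E,
    val (slotAt D.W w (1 + D.pos1 k (D.X + q) g c e)) * D.p * D.p ≤ 2 ^ D.W

theorem trS_rowM (hA : Fits A D) (h : D.Ok) (hw : InM D A.w) (v : RR → ℕ) {k q : ℕ}
    (hk : k < D.K) (hq : q < D.Q) (hG : v .G = 0) (hC : v .C = 0) (hE : v .E = 0) :
    TrS A rowM v (1 + D.pos1 k (D.X + q) 0 0 0) (D.R * D.E)
      ((List.range D.G).flatMap fun g => (List.range (2 * D.X)).flatMap fun c =>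
        (List.range D.E).flatMap fun e =>
        bits D.W (val (slotAt D.W A.w (1 + D.pos1 k (D.X + q) g c e)) * D.mid q c % D.p))
      (MJ D q) (MJ D (q + 1)) := by
  have h1 : TrS A (loop .G (seq (cp .m .m0) (loop .C (seq (loop .E slotM) (mul .m .m .u)))))
      v (1 + D.pos1 k (D.X + q) 0 0 0) (A.m .G * (A.m .C * (A.m .E * 1)))
      ((List.range (A.m .G)).flatMap fun g => (List.range (A.m .C)).flatMap fun c =>
        (List.range (A.m .E)).flatMap fun e =>
        bits D.W (val (slotAt D.W A.w (1 + D.pos1 k (D.X + q) g c e)) * D.mid q c % D.p))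
      (MJ D q) (MJ D q) := by
    refine trS_loop (fun _ => MJ D q) _ hG (fun g hg => ?_)
    rw [hA.mG] at hg
    have a1 : TrS A (cp .m .m0 : WP RR VV) (update v .G g)
        (1 + D.pos1 k (D.X + q) 0 0 0 + g * (A.m .C * (A.m .E * 1))) 0 [] (MJ D q)
        (MI D q 0) := by
      refine trS_zero (tr_cp (fun u hu => ?_))
      obtain ⟨⟨h1, h2, h3⟩, h4, h5, h6⟩ := hu
      simp only [MI, MC, Function.update_self, ne_eq, reduceCtorEq, not_false_eq_true,
        Function.update_of_ne]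
      exact ⟨⟨h1, h2, h3⟩, h4, h5, h6, h4⟩
    have a2 : TrS A (loop .C (seq (loop .E slotM) (mul .m .m .u))) (update v .G g)
        (1 + D.pos1 k (D.X + q) g 0 0) (A.m .C * (A.m .E * 1))
        ((List.range (A.m .C)).flatMap fun c => (List.range (A.m .E)).flatMap fun e =>
          bits D.W (val (slotAt D.W A.w (1 + D.pos1 k (D.X + q) g c e)) * D.mid q c % D.p))
        (MI D q 0) (MI D q (A.m .C)) := by
      refine trS_loop (fun c => MI D q c) _ (by simp [hC]) (fun c hc => ?_)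
      rw [hA.mC] at hc
      have b1 : TrS A (loop .E slotM) (update (update v .G g) .C c)
          (1 + D.pos1 k (D.X + q) g c 0) (A.m .E * 1)
          ((List.range (A.m .E)).flatMap fun e =>
            bits D.W (val (slotAt D.W A.w (1 + D.pos1 k (D.X + q) g c e)) * D.mid q c % D.p))
          (MI D q c) (MI D q c) := by
        refine trS_loop (fun _ => MI D q c) _ (by simp [hE]) (fun e he => ?_)
        rw [hA.mE] at he
        have c1 := trS_slotM hA h (update (update (update v .G g) .C c) .E e)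
          (1 + D.pos1 k (D.X + q) g c e) q c (by
            refine le_trans (Nat.mul_le_mul_right _ ?_) hw.hl
            have := pos1_lt (D := D) hk hq hg hc he
            omega) (hw.hb k hk q hq g hg c hc e he)
        have e1 : 1 + D.pos1 k (D.X + q) g c 0 + e * 1 = 1 + D.pos1 k (D.X + q) g c e := by
          unfold Dim.pos1
          ring
        rw [e1]
        exact c1
      have b2 : TrS A (mul .m .m .u : WP RR VV) (update (update v .G g) .C c)
          (1 + D.pos1 k (D.X + q) g c 0 + A.m .E * 1) 0 [] (MI D q c) (MI D q (c + 1)) := by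
        refine trS_zero (tr_mul_small hA h (mid_lt h q c) (wp_lt h q) (mid_succ D q c)
          (fun u hu => ⟨hu.2.2.2.2, hu.2.2.2.1, MI_upd hu⟩))
      have e1 : 1 + D.pos1 k (D.X + q) g 0 0 + c * (A.m .E * 1) =
          1 + D.pos1 k (D.X + q) g c 0 := by
        rw [hA.mE]
        unfold Dim.pos1
        ring
      rw [e1]
      exact (b1.seq b2).congr (fun _ h => h) rfl (by simp) (fun _ h => h)
    have e1 : 1 + D.pos1 k (D.X + q) 0 0 0 + g * (A.m .C * (A.m .E * 1)) =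
        1 + D.pos1 k (D.X + q) g 0 0 := by
      rw [hA.mE, hA.mC]
      unfold Dim.pos1
      ring
    rw [e1] at a1 ⊢
    exact (a1.seq a2).congr (fun _ h => h) (by simp) (by simp)
      (fun u hu => ⟨hu.1, hu.2.1, hu.2.2.1, hu.2.2.2.1⟩)
  set t' := 1 + D.pos1 k (D.X + q) 0 0 0 + A.m .G * (A.m .C * (A.m .E * 1)) with ht'
  have h2 : TrS A (mul .m0 .m0 .r : WP RR VV) v t' 0 [] (MJ D q)
      (fun u => MC D u ∧ u .m0 = D.mid (q + 1) 0 ∧ u .r = vp D (D.X + 1 + 2 * q) ∧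
        u .u = wp D q) := by
    refine trS_zero (tr_mul_small hA h (mid_lt h q 0) (vp_lt h _) (mid_row D q)
      (fun u hu => ?_))
    obtain ⟨⟨h1, h2, h3⟩, h4, h5, h6⟩ := hu
    simp [MC, h1, h2, h3, h4, h5, h6]
  have h3 : TrS A (mul .r .r .v2 : WP RR VV) v (t' + 0) 0 []
      (fun u => MC D u ∧ u .m0 = D.mid (q + 1) 0 ∧ u .r = vp D (D.X + 1 + 2 * q) ∧
        u .u = wp D q)
      (fun u => MC D u ∧ u .m0 = D.mid (q + 1) 0 ∧ u .r = vp D (D.X + 1 + 2 * (q + 1)) ∧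
        u .u = wp D q) := by
    refine trS_zero (tr_mul_small hA h (vp_lt h _) (vp_lt h 2) (vp_two D q)
      (fun u hu => ?_))
    obtain ⟨⟨h1, h2, h3⟩, h4, h5, h6⟩ := hu
    simp [MC, h1, h2, h3, h4, h5, h6]
  have h4 : TrS A (mul .u .u .w : WP RR VV) v (t' + 0 + 0) 0 []
      (fun u => MC D u ∧ u .m0 = D.mid (q + 1) 0 ∧ u .r = vp D (D.X + 1 + 2 * (q + 1)) ∧
        u .u = wp D q)
      (MJ D (q + 1)) := by
    refine trS_zero (tr_mul_small hA h (wp_lt h _) (wp_lt h 1) (wp_add D q 1)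
      (fun u hu => ?_))
    obtain ⟨⟨h1, h2, h3⟩, h4, h5, h6⟩ := hu
    simp [MC, MJ, h1, h2, h3, h4, h5, h6]
  refine (h1.seq (h2.seq (h3.seq h4))).congr (fun _ h => h) ?_ ?_ (fun _ h => h)
  · rw [hA.mG, hA.mC, hA.mE]
    unfold Dim.R
    ring
  · rw [hA.mG, hA.mC, hA.mE]
    simp

theorem trS_blockM (hA : Fits A D) (h : D.Ok) (hw : InM D A.w) (v : RR → ℕ) {k : ℕ}
    (hk : k < D.K) (hQ : v .Q = 0) (hX : v .X = 0) (hG : v .G = 0) (hC : v .C = 0)
    (hE : v .E = 0) (hW : v .W = 0) :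
    TrS A blockM v (1 + k * (D.S1 * D.E)) (D.S1 * D.E)
      (((List.range D.Q).flatMap fun q => (List.range D.G).flatMap fun g =>
        (List.range (2 * D.X)).flatMap fun c => (List.range D.E).flatMap fun e =>
        bits D.W (val (slotAt D.W A.w (1 + D.pos1 k (D.X + q) g c e)) * D.mid q c % D.p)) ++
        zeros ((D.X + D.Q) * D.R * D.E * D.W))
      (MC D) (MC D) := by
  set t := 1 + k * (D.S1 * D.E) with ht
  have h1 : TrS A (one .m0 : WP RR VV) v t 0 [] (MC D)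
      (fun u => MC D u ∧ u .m0 = D.mid 0 0) := by
    refine trS_zero (tr_one (fun u hu => ?_))
    obtain ⟨h1, h2, h3⟩ := hu
    have e1 : D.mid 0 0 = 1 := by
      rw [mid_zero_zero]
      exact Nat.mod_eq_of_lt (by have := h.hXp; have := h.hX; omega)
    simp [MC, h1, h2, h3, e1]
  have h2 : TrS A (cp .r .r0 : WP RR VV) v (t + 0) 0 [] (fun u => MC D u ∧ u .m0 = D.mid 0 0)
      (fun u => MC D u ∧ u .m0 = D.mid 0 0 ∧ u .r = vp D (D.X + 1 + 2 * 0)) := by
    refine trS_zero (tr_cp (fun u hu => ?_))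
    obtain ⟨⟨h1, h2, h3⟩, h4⟩ := hu
    simp [MC, h1, h2, h3, h4]
  have h3 : TrS A (one .u : WP RR VV) v (t + 0 + 0) 0 []
      (fun u => MC D u ∧ u .m0 = D.mid 0 0 ∧ u .r = vp D (D.X + 1 + 2 * 0)) (MJ D 0) := by
    refine trS_zero (tr_one (fun u hu => ?_))
    obtain ⟨⟨h1, h2, h3⟩, h4, h5⟩ := hu
    have e1 := one_eq h
    simp only [MC, MJ, Function.update_self, ne_eq, reduceCtorEq, not_false_eq_true,
      Function.update_of_ne]
    exact ⟨⟨h1, h2, h3⟩, h4, h5, e1.symm⟩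
  have h4 : TrS A (loop .X skR) v (t + 0 + 0 + 0) (A.m .X * (D.R * D.E)) [] (MJ D 0) (MJ D 0) :=
    trS_skipLoop hX (fun i t => trS_skR hA (by simp [hG]) (by simp [hC]) (by simp [hE])
      (by simp [hW]))
  have h5 : TrS A (loop .Q rowM) v (1 + D.pos1 k D.X 0 0 0) (A.m .Q * (D.R * D.E))
      ((List.range (A.m .Q)).flatMap fun q => (List.range D.G).flatMap fun g =>
        (List.range (2 * D.X)).flatMap fun c => (List.range D.E).flatMap fun e =>
        bits D.W (val (slotAt D.W A.w (1 + D.pos1 k (D.X + q) g c e)) * D.mid q c % D.p))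
      (MJ D 0) (MJ D (A.m .Q)) := by
    refine trS_loop (fun q => MJ D q) _ hQ (fun q hq => ?_)
    rw [hA.mQ] at hq
    have e1 : 1 + D.pos1 k D.X 0 0 0 + q * (D.R * D.E) = 1 + D.pos1 k (D.X + q) 0 0 0 := by
      unfold Dim.pos1
      ring
    rw [e1]
    exact trS_rowM hA h hw _ hk hq (by simp [hG]) (by simp [hC]) (by simp [hE])
  have e5 : t + 0 + 0 + 0 + A.m .X * (D.R * D.E) = 1 + D.pos1 k D.X 0 0 0 := by
    rw [hA.mX, ht]
    unfold Dim.pos1
    ring
  rw [← e5] at h5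
  have h6 : ∀ t, TrS A (loop .X (seq skR skE)) v t (A.m .X * (D.R * D.E + D.E)) [] (MC D)
      (MC D) := fun t =>
    trS_skipLoop hX (fun i t => (trS_skR hA (by simp [hG]) (by simp [hC]) (by simp [hE])
      (by simp [hW])).seq (trS_skE hA (by simp [hE]) (by simp [hW])))
  have h7 : ∀ t, TrS A (loop .X zR) v t 0 (zeros (A.m .X * (D.R * D.E * D.W))) (MC D) (MC D) :=
    fun t => trS_zeroLoop hX (fun i t => trS_zR hA (by simp [hG]) (by simp [hC]) (by simp [hE])
      (by simp [hW]))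
  have h8 : ∀ t, TrS A (loop .Q zR) v t 0 (zeros (A.m .Q * (D.R * D.E * D.W))) (MC D) (MC D) :=
    fun t => trS_zeroLoop hQ (fun i t => trS_zR hA (by simp [hG]) (by simp [hC]) (by simp [hE])
      (by simp [hW]))
  have h5' := h5.congr (P' := MJ D 0) (Q' := MC D) (fun _ h => h) rfl rfl (fun _ h => h.1)
  refine (h1.seq (h2.seq (h3.seq (h4.seq (h5'.seq ((h6 _).seq ((h7 _).seq (h8 _)))))))).congr
    (fun _ h => h) ?_ ?_ (fun _ h => h)
  · rw [hA.mQ, hA.mX]
    unfold Dim.S1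
    ring
  · rw [hA.mQ, hA.mX]
    simp only [List.nil_append, List.append_cancel_left_eq]
    unfold zeros
    rw [← List.replicate_add]
    congr 1
    ring

/-- The middle pass. -/
theorem tr_progM (hA : Fits A D) (h : D.Ok) (hw : InM D A.w) (v : RR → ℕ) (hv : ∀ r, v r = 0) :
    Tr A progM v 0 ((1 + D.K * (D.S1 * D.E)) * D.W) (midBits D A.w)
      (fun u => u .w = wp D 1) (MC D) := by
  have h1 := tr_preM (p := 0) hA h (hv .Q) (hv .X)
  have h2 : TrS A (loop .W skip : WP RR VV) v 0 1 [] (MC D) (MC D) :=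
    trS_skipW (by rw [hA.mW, hA.hW]) (hv .W)
  have h3 : TrS A (loop .K blockM) v (0 + 1) (A.m .K * (D.S1 * D.E))
      ((List.range (A.m .K)).flatMap fun k =>
      ((List.range D.Q).flatMap fun q => (List.range D.G).flatMap fun g =>
        (List.range (2 * D.X)).flatMap fun c => (List.range D.E).flatMap fun e =>
        bits D.W (val (slotAt D.W A.w (1 + D.pos1 k (D.X + q) g c e)) * D.mid q c % D.p)) ++
        zeros ((D.X + D.Q) * D.R * D.E * D.W)) (MC D) (MC D) := by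
    refine trS_loop (fun _ => MC D) _ (hv .K) (fun k hk => ?_)
    rw [hA.mK] at hk
    rw [Nat.zero_add]
    exact trS_blockM hA h hw _ hk (by simp [hv]) (by simp [hv]) (by simp [hv]) (by simp [hv])
      (by simp [hv]) (by simp [hv])
  have h4 : Tr A (seq (loop .W skip) (loop .K blockM)) v (0 * A.W)
      ((1 + A.m .K * (D.S1 * D.E)) * A.W) _ (MC D) (MC D) := h2.seq h3
  rw [Nat.zero_mul] at h4
  refine (h1.seq h4).congr (fun _ h => h) ?_ ?_ (fun _ h => h)
  · rw [hA.mK, hA.hW, Nat.zero_add]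
  · rw [hA.mK]
    rfl

end Vale.Agent.P338.R2.H207.Fp
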