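import Vale.Agent.P338.R2.H207.Fp.Cost
import Vale.Agent.P338.R2.H898.XPass

/-!
The `Run` statements of the middle pass and of the final pass.
-/

namespace Vale.Agent.P338.R2.H207.Fp

open H525.Fp
open H778 (bits)
open H898
open H968 (CallEnv)
open H968.CallEnv (mem0)
open Function (update)

/-- The scratch registers: all but `w`. -/
def scr : List VV := [.z, .m, .m0, .r, .r0, .u, .v, .v2, .t, .s]

theorem scr_nodup : scr.Nodup := by decide

theorem not_mem_scr {i : VV} (h : i ∉ scr) : i = .w := by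
  revert h
  cases i <;> decide

variable {M F α : Type} [DecidableEq F] [DecidableEq α] {d : α} {A : MTM}

theorem p_lt (D : Dim) (h : D.Ok) : D.p < 2 ^ D.W := by
  have h1 := h.hW
  have h2 := h.hXp
  have h3 := h.hX
  have h4 : D.p ^ 1 < D.p ^ 5 := Nat.pow_lt_pow_right (by omega) (by norm_num)
  rw [pow_one] at h4
  omega

theorem mu_lt (D : Dim) (h : D.Ok) : 2 ^ D.W / D.p + 1 < 2 ^ D.W := by
  have h1 := p_lt D h
  have h2 := h.hXp
  have h3 := h.hX
  have h4 : 2 ^ D.W / D.p ≤ 2 ^ D.W / 3 := Nat.div_le_div_left (by omega) (by norm_num)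
  omega

theorem rul_pos {m : RR → ℕ} {D : Dim} (hm : Rul m D) (h : D.Ok) (hK : 1 ≤ D.K) (r : RR) :
    0 < m r := by
  have h1 := h.hX
  have h2 := h.hG
  have h3 := h.hE
  have h4 := W_pos h
  have h5 := Q_pos h
  cases r with
  | K => rw [hm.mK]; omega
  | X => rw [hm.mX]; omega
  | Y => rw [hm.mY]; omega
  | C => rw [hm.mC]; omega
  | G => rw [hm.mG]; omega
  | E => rw [hm.mE]; omega
  | W => rw [hm.mW]; omega
  | Q => rw [hm.mQ]; omega

theorem cost_le {D : Dim} (h : D.Ok) (hK : 1 ≤ D.K) {b c : ℕ}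
    (hb : b ≤ c * (D.K * (D.Q * (D.G * (2 * D.X * (D.E * wcost A D.W)))))) :
    b + scr.length * (4 * D.W + 4) + 4 ≤
      (c + 5) * (D.K * (D.Q * (D.G * (2 * D.X * (D.E * wcost A D.W))))) := by
  have h1 := le_wcost A D.W (W_pos h)
  have h2 : wcost A D.W ≤ D.K * (D.Q * (D.G * (2 * D.X * (D.E * wcost A D.W)))) := by
    calc wcost A D.W ≤ wcost A D.W * (D.K * (D.Q * (D.G * (2 * D.X * D.E)))) := by
          refine Nat.le_mul_of_pos_right _ ?_
          have := h.hX
          have := Q_pos h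
          exact Nat.mul_pos (by omega) (Nat.mul_pos (by omega) (Nat.mul_pos h.hG
            (Nat.mul_pos (by omega) h.hE)))
      _ = _ := by ring
  have h3 : scr.length = 10 := rfl
  rw [h3]
  rw [Nat.add_mul]
  omega

/-- **The middle pass.** -/
theorem run_mid (hA : Multiplies A) (E : CallEnv A M (WF RR VV A.Tape) α d)
    (hfile : ∀ c, E.file c = .call c) (one mk : α) (hmk : one ≠ mk) {mem : M}
    (hmem : E.put (mem0 A) mem = mem) (D : Dim) (h : D.Ok) (hK : 1 ≤ D.K) (hwp : D.w < D.p)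
    (m : RR → ℕ) (hm : Rul m D) (u : VV → ℕ) (hu : u .w = D.w) (w : List Bool) (hw : InM D w)
    {ι : WF RR VV A.Tape → F} (hι : Function.Injective ι) (z : F → Zip α)
    (hz : WInit E one scr progM D.W D.L D.p (2 ^ D.W / D.p + 1) m u w fun f => z (ι f)) :
    Prog.Run d ((wpass E one mk scr progM).map (Lens.idL M) ι) ⟨mem, z⟩
      (155 * (D.K * (D.Q * (D.G * (2 * D.X * (D.E * wcost A D.W))))))
      ⟨mem, update z (ι .out) ⟨[], (midBits D w).map E.bit⟩⟩ := by
  obtain ⟨u1, hu1, hev⟩ := eval_progM hm h hw hwp (fun i => if i ∈ scr then 0 else u i)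
    (by rw [← hu]; rfl)
  have h1 := run_wpassMap (d := d) hA E hfile one mk hmk scr scr_nodup progM wf_progM
    hmem h.hL (W_pos h) (p_lt D h) (mu_lt D h) m (fun r _ => rul_pos hm h hK r) u u1
    (by
      intro i hi
      rw [not_mem_scr hi, hu1, hu]) w hι z hz hev
  have hT := le_wcost A D.W (W_pos h)
  exact h1.mono (cost_le h hK (bd_progM hm h (by omega) (fun _ => le_rfl) hK))

/-- **The final pass.** -/
theorem run_post (hA : Multiplies A) (E : CallEnv A M (WF RR VV A.Tape) α d)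
    (hfile : ∀ c, E.file c = .call c) (one mk : α) (hmk : one ≠ mk) {mem : M}
    (hmem : E.put (mem0 A) mem = mem) (D : Dim) (h : D.Ok) (hK : 1 ≤ D.K) (hwp : D.w < D.p)
    (m : RR → ℕ) (hm : Rul m D) (u : VV → ℕ) (hu : u .w = D.w) (w : List Bool) (hw : InP D w)
    {ι : WF RR VV A.Tape → F} (hι : Function.Injective ι) (z : F → Zip α)
    (hz : WInit E one scr progP D.W D.L D.p (2 ^ D.W / D.p + 1) m u w fun f => z (ι f)) :
    Prog.Run d ((wpass E one mk scr progP).map (Lens.idL M) ι) ⟨mem, z⟩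
      (205 * (D.K * (D.Q * (D.G * (2 * D.X * (D.E * wcost A D.W))))))
      ⟨mem, update z (ι .out) ⟨[], (postBits D w).map E.bit⟩⟩ := by
  obtain ⟨u1, hu1, hev⟩ := eval_progP hm h hw hwp (fun i => if i ∈ scr then 0 else u i)
    (by rw [← hu]; rfl)
  have h1 := run_wpassMap (d := d) hA E hfile one mk hmk scr scr_nodup progP wf_progP
    hmem h.hL (W_pos h) (p_lt D h) (mu_lt D h) m (fun r _ => rul_pos hm h hK r) u u1
    (by
      intro i hi
      rw [not_mem_scr hi, hu1, hu]) w hι z hz hev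
  have hT := le_wcost A D.W (W_pos h)
  exact h1.mono (cost_le h hK (bd_progP hm h (by omega) (fun _ => le_rfl) hK))

end Vale.Agent.P338.R2.H207.Fp
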